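import Vale.Agent.P011LB.Md
import Vale.Agent.P011L.IF

/-!
Isotropic forms of type `A`: the interfaces between the steps.
-/

set_option autoImplicit false
set_option linter.all false

open Matrix TensorProduct

namespace Vale.Agent.P011UW

open Vale.Agent.P011L Vale.Agent.P011LB

/-- The automorphisms of `SL_2`. -/
def A2 : Prop :=
  ∀ (K : Type) [Field K] [Infinite K] (ψ : SA K 2 ≃* SA K 2), Pol ψ → Pol ψ.symm →
    ∃ s : GL (Fin 2) K, ∀ g, (ψ g).1.1 * s.1 = s.1 * g.1.1

/-- A form of the algebra with involution of the pairs of matrices. -/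
structure Mo (k K : Type) [Field k] [Field K] [Algebra k K] (n : ℕ) (A : Type) [Ring A]
    [StarRing A] [Algebra k A] where
  j : A →ₐ[k] BB n K
  st : ∀ a, j (star a) = st (j a)
  bij : Function.Bijective (lf j : K ⊗[k] A →ₐ[K] BB n K)
  dich : (∃ c, j c = (1, 0)) ∨ ∀ a, (j a).1 = 0 → a = 0

/-- The special unitary group. -/
def Mo.SU {k K : Type} [Field k] [Field K] [Algebra k K] {n : ℕ} {A : Type} [Ring A]
    [StarRing A] [Algebra k A] (M : Mo k K n A) : Subgroup (unitary A) where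
  carrier := {u | (M.j u).1.det = 1}
  mul_mem' := fun {a b} ha hb => by
    show (M.j (a.1 * b.1)).1.det = 1
    rw [map_mul, Prod.fst_mul, det_mul, ha, hb, one_mul]
  one_mem' := by
    show (M.j 1).1.det = 1
    rw [map_one, Prod.fst_one, det_one]
  inv_mem' := fun {a} ha => by
    have h : (M.j (star a.1 * a.1)).1.det = 1 := by rw [a.2.1, map_one, Prod.fst_one, det_one]
    rwa [map_mul, Prod.fst_mul, det_mul, ha, mul_one] at h

/-- The dictionary. -/
def DIC : Prop :=
  ∀ (k K : Type) [Field k] [Infinite k] [Field K] [Algebra k K] [IsSepClosure k K] (n : ℕ), 2 ≤ n →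
    ∀ T : Tw k (SA K n), ∃ (A : Type) (_ : Ring A) (_ : StarRing A) (_ : Algebra k A)
      (M : Mo k K n A), (∃ φ : T.fix ≃* M.SU, ∀ g, (M.j (φ g).1).1 = g.1.1.1) ∧
      (¬T.Ani → ∃ ε : A, ε * ε = ε ∧ ε * star ε = 0 ∧ star ε * ε = 0 ∧ (M.j ε).1 ≠ 0 ∧
        (M.j ε).2 ≠ 0)

/-- The reduced Whitehead group is trivial. -/
def SKI : Prop :=
  ∀ (k D K : Type) [Field k] [DivisionRing D] [Algebra k D] [FiniteDimensional k D] [Field K]
    (d : ℕ) (f : D →+* Matrix (Fin d) (Fin d) K), Glob k → 0 < d →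
    Submodule.span K (Set.range f) = ⊤ → ∀ u : Dˣ, (f u).det = 1 → u ∈ commutator Dˣ

/-- The reduced unitary Whitehead group is trivial. -/
def USK : Prop :=
  ∀ (k D K : Type) [Field k] [DivisionRing D] [StarRing D] [Algebra k D] [FiniteDimensional k D]
    [Field K] (d : ℕ) (f : D →+* Matrix (Fin d) (Fin d) K), Glob k → 0 < d →
    Submodule.span K (Set.range f) = ⊤ → (∀ (a : k) (x : D), star (a • x) = a • star x) →
    (∃ c : D, (∀ x, x * c = c * x) ∧ star c ≠ c) →
    ∀ H : Subgroup Dˣ, (∀ s : Dˣ, star (s : D) = s → s ∈ H) →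
      ∀ u : Dˣ, (f (star (u : D))).det = (f u).det → u ∈ H

end Vale.Agent.P011UW
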