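import Vale.Agent.P011UW.Main
import Vale.Agent.P011UW4.Dic
import Vale.Agent.P011UW5.Usk

/-!
Isotropic forms of type `A`: the assembly.
-/

set_option autoImplicit false
set_option linter.all false

namespace Vale.Agent.P011UW

open Vale.Agent.P011UE

theorem ia (hC : CORE) (hN : NST) (hd : DENS) (hA : RAM) : P011U.IA :=
  ia_of P011UW4.dic (P011UW5.ski hC hN hd hA) (P011UW5.usk (P011UW5.ski hC hN hd hA))

end Vale.Agent.P011UW
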