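import Vale.Agent.P011UW.Bas
import Mathlib.Tactic.Abel
import Mathlib.Tactic.Module

/-!
Isotropic forms of type `A`: transvections, Weyl elements, Eichler maps.
-/

set_option autoImplicit false
set_option linter.all false

namespace Vale.Agent.P011UW

variable {k A : Type} [Field k] [Ring A] [StarRing A] [Algebra k A]

variable (k) in
/-- A hyperbolic plane. -/
structure Hy (c e : A) : Prop extends Ce k c where
  dv : Dv c e
  es : e * star e = 0
  se : star e * e = 0

/-- The complement of the plane. -/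
def fe (e : A) : A := 1 - e - star e

/-- The group generated by the transvections. -/
def TT (e : A) : Subgroup (unitary A) := Subgroup.normalClosure {u | In e (star e) (u.1 - 1)}

instance (e : A) : (TT e).Normal := Subgroup.normalClosure_normal

/-- Membership in the group generated by the transvections. -/
def Tm (e a : A) : Prop := ∃ u ∈ TT e, u.1 = a

variable {c e a b x x' y z : A}

theorem Tm.u (h : Tm e a) : a ∈ unitary A := h.elim fun u hu => hu.2 ▸ u.2

theorem Tm.mul (h : Tm e a) (h' : Tm e b) : Tm e (a * b) := by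
  obtain ⟨u, h, rfl⟩ := h
  obtain ⟨v, h', rfl⟩ := h'
  exact ⟨u * v, mul_mem h h', rfl⟩

theorem Tm.st (h : Tm e a) : Tm e (star a) := by
  obtain ⟨u, h, rfl⟩ := h
  exact ⟨u⁻¹, inv_mem h, rfl⟩

theorem Tm.cj (h : Tm e a) (hb : b ∈ unitary A) : Tm e (b * a * star b) := by
  obtain ⟨u, h, rfl⟩ := h
  exact ⟨_, Subgroup.Normal.conj_mem inferInstance u h ⟨b, hb⟩, rfl⟩

theorem Tm.of (h : Tm e a) (h' : b = a) : Tm e b := h' ▸ h

theorem Tm.mem {u : unitary A} (h : Tm e u.1) : u ∈ TT e :=
  h.elim fun _ hv => Subtype.ext hv.2 ▸ hv.1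

theorem fe_star : star (fe e) = fe e := by
  rw [fe, star_sub, star_sub, star_one, star_star, sub_right_comm]

theorem fe_st : fe (star e) = fe e := by rw [fe, fe, star_star, sub_right_comm]

theorem fe_sum : e + fe e + star e = 1 := by rw [fe]; abel

theorem Iv.skew (h : Iv e (star e) x x') (hs : star x = -x) : star x' = -x' := by
  have := h.st
  rw [star_star, hs] at this
  exact this.uniq h.neg

namespace Hy

variable (H : Hy k c e)
include H

theorem ee : e * e = e := H.dv.pp

theorem ss : star e * star e = star e := by rw [← star_mul, H.ee]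

theorem ef : e * fe e = 0 := by rw [fe, mul_sub, mul_sub, mul_one, H.ee, H.es, sub_self, sub_self]

theorem fe0 : fe e * e = 0 := by rw [fe, sub_mul, sub_mul, one_mul, H.ee, H.se, sub_self, sub_self]

theorem sf : star e * fe e = 0 := by rw [← fe_star, ← star_mul, H.fe0, star_zero]

theorem fs : fe e * star e = 0 := by rw [← fe_star, ← star_mul, H.ef, star_zero]

theorem ff : fe e * fe e = fe e := by
  nth_rw 1 [fe]
  rw [sub_mul, sub_mul, one_mul, H.ef, H.sf, sub_zero, sub_zero]

theorem ie : In e e e := ⟨H.ee, H.ee⟩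

theorem is : In (star e) (star e) (star e) := ⟨H.ss, H.ss⟩

theorem jf : In (fe e) (fe e) (fe e) := ⟨H.ff, H.ff⟩

theorem dv' : Dv c (star e) := H.toCe.dv_star H.dv

theorem flip : Hy k c (star e) :=
  ⟨H.toCe, H.dv', by rw [star_star, H.se], by rw [star_star, H.es]⟩

theorem eich (hy : In (fe e) (star e) y) (hz : In e (star e) z)
    (hq : z + star z + star y * y = 0) : 1 + y - star y + z ∈ unitary A := by
  have hy' : In e (fe e) (star y) := by simpa only [star_star, fe_star] using hy.st
  have hz' : In e (star e) (star z) := by simpa only [star_star] using hz.st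
  constructor <;>
  · simp only [star_add, star_sub, star_one, star_star, mul_add, add_mul, mul_sub, sub_mul, mul_one,
      one_mul, hy.z hy H.sf, hy.z hy' H.se, hy.z hz H.se, hy.z hz' H.se, hy'.z hy' H.fe0,
      hy'.z hz H.fe0, hy'.z hz' H.fe0, hz.z hy H.sf, hz.z hy' H.se, hz.z hz' H.se,
      hz'.z hy H.sf, hz'.z hy' H.se, hz'.z hz H.se, eq_neg_of_add_eq_zero_right hq]
    abel

theorem eich_mul {y' z' : A} (hy : In (fe e) (star e) y) (hz : In e (star e) z)
    (gy : In (fe e) (star e) y') (gz : In e (star e) z') :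
    (1 + y - star y + z) * (1 + y' - star y' + z') =
      1 + (y + y') - star (y + y') + (z + z' - star y * y') := by
  have hy' : In e (fe e) (star y) := by simpa only [star_star, fe_star] using hy.st
  have gy' : In e (fe e) (star y') := by simpa only [star_star, fe_star] using gy.st
  simp only [star_add, mul_add, add_mul, mul_sub, sub_mul, mul_one, one_mul, hy.z gy H.sf,
    hy.z gy' H.se, hy.z gz H.se, hy'.z gy' H.fe0, hy'.z gz H.fe0, hz.z gy H.sf, hz.z gy' H.se,
    hz.z gz H.se]
  abel

theorem tv (hx : In e (star e) x) (hs : star x = -x) : Tm e (1 + x) := by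
  have := H.eich In.zero hx (by rw [hs, mul_zero, add_zero, add_neg_cancel])
  rw [star_zero, add_zero, sub_zero] at this
  exact ⟨⟨_, this⟩, Subgroup.subset_normalClosure (by
    show In e (star e) (1 + x - 1)
    rwa [add_sub_cancel_left]), rfl⟩

theorem skew (hx : In e (star e) x) (h : 1 + x ∈ unitary A) : star x = -x := by
  have hx' : In e (star e) (star x) := by simpa only [star_star] using hx.st
  have := h.1
  rw [star_add, star_one, add_mul, one_mul, mul_add, mul_one, hx'.z hx H.se, add_zero,
    add_assoc, add_eq_left] at this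
  exact eq_neg_of_add_eq_zero_right this

theorem weyl_mul {w w' : A} (h : Iv e (star e) x x') (g : Iv e (star e) w w') :
    (fe e + x - x') * (fe e - w + w') = fe e + x * w' + x' * w := by
  simp only [mul_add, add_mul, mul_sub, sub_mul, H.ff, g.a.zl H.fe0, g.b.zl H.fs, h.a.zr H.sf,
    h.b.zr H.ef, h.a.z g.a H.se, h.b.z g.b H.es]
  abel

theorem weyl_star (h : Iv e (star e) x x') (hs : star x = -x) :
    star (fe e + x - x') = fe e - x + x' := by
  rw [star_sub, star_add, fe_star, hs, h.skew hs]
  abel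

theorem weyl (h : Iv e (star e) x x') (hs : star x = -x) : fe e + x - x' ∈ unitary A := by
  have a := H.weyl_mul h h
  have b := H.weyl_mul h.neg h.neg
  rw [neg_mul_neg, neg_mul_neg, ← sub_eq_add_neg, sub_neg_eq_add, sub_neg_eq_add,
    ← sub_eq_add_neg] at b
  rw [h.xy, h.yx, add_comm (fe e) e, fe_sum] at a b
  exact ⟨by rw [H.weyl_star h hs, b], by rw [H.weyl_star h hs, a]⟩

theorem tv_of (h : Iv e (star e) x x') (hs : star x = -x) (hy : In (star e) e y)
    (hs' : star y = -y) : Tm e (1 + y) := by
  refine ((H.tv (h.a.mid h.a y).neg (by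
    rw [star_neg, star_mul, star_mul, hs, hs']; noncomm_ring)).cj (H.weyl h hs)).of ?_
  have e1 : (fe e + x - x') * -(x * y * x) = y * x := by
    rw [mul_neg, sub_mul, add_mul, (h.a.mid h.a y).zl H.fe0, h.a.z (h.a.mid h.a y) H.se,
      ← mul_assoc, ← mul_assoc, h.yx, hy.l]
    abel
  rw [mul_add, add_mul, mul_one, (H.weyl h hs).2, e1, H.weyl_star h hs, mul_assoc, mul_add, mul_sub,
    h.a.zr H.sf, h.a.z h.a H.se, h.xy, sub_zero, zero_add, hy.r]

theorem tm_weyl (h : Iv e (star e) x x') (hs : star x = -x) : Tm e (fe e + x - x') := by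
  refine (((H.tv h.a hs).mul (H.tv_of h hs h.b.neg (by rw [star_neg, h.skew hs]))).mul
    (H.tv h.a hs)).of ?_
  simp only [fe, mul_add, add_mul, mul_neg, neg_mul, mul_one, one_mul, h.xy, h.yx, h.a.l,
    h.a.z h.a H.se]
  abel

theorem tm_lev {w w' : A} (h : Iv e (star e) x x') (hs : star x = -x) (g : Iv e (star e) w w')
    (gs : star w = -w) : Tm e (fe e + x * w' + x' * w) :=
  ((H.tm_weyl h hs).mul (H.tm_weyl g gs).st).of (by rw [H.weyl_star g gs, H.weyl_mul h g])

variable [Infinite k]

theorem ex : ∃ x x', Iv e (star e) x x' ∧ star x = -x := by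
  have key : ∀ c, Ce k c → Fu c e → ∃ x, e * (x - star x) * star e * c ≠ 0 := fun c G h => by
    by_contra! a
    refine (G.fu_star h).1 (G.prl h.1 fun x => (G.pol (b := -(e * star x * star e * c)) ?_ ?_).1)
    · rw [← a x]
      noncomm_ring
    · rw [← a (c * x), star_mul, G.cen', mul_sub, sub_mul, sub_mul, ← mul_assoc e c, G.cen e,
        ← mul_assoc e (star c), G.cen' e]
      noncomm_ring
  obtain ⟨x, hx⟩ := H.toCe.full (X := A) (F := fun x => e * (x - star x) * star e)
    (((PF.const e).mul ((PF.lin .id).sub ((PF.lin .id).st H.toCe))).mul (.const _))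
    (key c H.toCe H.dv.fu) (key _ H.toCe.symm (Ce.fu_symm H.dv.fu))
  obtain ⟨x', h⟩ := H.toCe.inv H.dv H.dv' (H.ie.mid H.is _) hx
  exact ⟨_, x', h, by
    rw [star_mul, star_mul, star_star, star_sub, star_star]; noncomm_ring⟩

theorem tv' (hy : In (star e) e y) (hs : star y = -y) : Tm e (1 + y) := by
  obtain ⟨x, x', h, hx⟩ := H.ex
  exact H.tv_of h hx hy hs

theorem tm_flip (h : Tm (star e) a) : Tm e a := by
  obtain ⟨u, h, rfl⟩ := h
  refine ⟨u, Subgroup.normalClosure_le_normal (fun v hv => Tm.mem ?_) h, rfl⟩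
  have e1 : v.1 = 1 + (v.1 - 1) := (add_sub_cancel _ _).symm
  have hv' : In (star e) e (v.1 - 1) := by
    have : In (star e) (star (star e)) (v.1 - 1) := hv
    rwa [star_star] at this
  exact (H.tv' hv' (H.flip.skew hv (e1 ▸ v.2))).of e1

theorem tm_tor {t : k} (ht : t ≠ 0) : Tm e (fe e + t • e + t⁻¹ • star e) := by
  obtain ⟨x, x', h, hx⟩ := H.ex
  refine (H.tm_lev (h.smul ht) (by rw [H.st, hx, smul_neg]) h hx).of ?_
  rw [smul_mul_assoc, smul_mul_assoc, h.xy, h.yx]

omit [Infinite k] in
theorem tor_star (t : k) : star (fe e + t • e + t⁻¹ • star e) = fe e + t⁻¹ • e + t • star e := by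
  rw [star_add, star_add, fe_star, H.st, H.st, star_star, add_right_comm]

omit [Infinite k] in
theorem tor_cj {t : k} (ht : t ≠ 0) (hy : In (fe e) (star e) y) (hz : In e (star e) z) :
    (fe e + t • e + t⁻¹ • star e) * (1 + y - star y + z) * star (fe e + t • e + t⁻¹ • star e) =
      1 + t • y - star (t • y) + t ^ 2 • z := by
  have hy' : In e (fe e) (star y) := by simpa only [star_star, fe_star] using hy.st
  rw [H.tor_star, H.st]
  simp only [mul_add, add_mul, mul_sub, sub_mul, mul_one, smul_mul_assoc, mul_smul_comm, hy.l, hy.r,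
    hy'.l, hy'.r, hz.l, hz.r, hy.zl H.ef, hy.zl H.sf, hy'.zl H.fe0, hy'.zl H.se, hz.zl H.fe0,
    hz.zl H.se, hy.zr H.sf, hy.zr H.se, hy'.zr H.fe0, hy'.zr H.fs, hz.zr H.sf, hz.zr H.se, H.ff,
    H.ef, H.fe0, H.sf, H.fs, H.ee, H.ss, H.es, H.se, smul_zero, zero_mul, add_zero, zero_add,
    sub_zero, smul_add, smul_sub, smul_smul, inv_mul_cancel₀ ht, mul_inv_cancel₀ ht, one_smul, sq,
    ← fe_sum (e := e)]
  abel

omit [Infinite k] in
theorem quad (hy : In (fe e) (star e) y) : In e (star e) (-(c * (star y * y))) ∧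
    -(c * (star y * y)) + star (-(c * (star y * y))) + star y * y = 0 := by
  have hy' : In e (fe e) (star y) := by simpa only [star_star, fe_star] using hy.st
  refine ⟨((hy'.mul hy).cen H.cen).neg, ?_⟩
  rw [star_neg, star_mul, star_mul, star_star, H.toCe.cen', ← neg_add, ← add_mul, H.tr, one_mul,
    neg_add_cancel]

theorem tm_eich (hy : In (fe e) (star e) y) (hz : In e (star e) z)
    (hq : z + star z + star y * y = 0) : Tm e (1 + y - star y + z) := by
  obtain ⟨t, t0, t1, -⟩ := exists_t k
  have g1 := hy.smul (t - 1)⁻¹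
  generalize hw : (t - 1)⁻¹ • y = w at g1
  obtain rfl : y = (t - 1) • w := by rw [← hw, smul_smul, mul_inv_cancel₀ t1, one_smul]
  obtain ⟨g2, g3⟩ := H.quad g1
  generalize -(c * (star w * w)) = v at g2 g3
  have g4 : In e (fe e) (star w) := by simpa only [star_star, fe_star] using g1.st
  have g5 : In e (star e) (star v) := by simpa only [star_star] using g2.st
  have u1 := H.eich g1 g2 g3
  have s1 : ∀ y z : A, star (1 + y - star y + z) = 1 + -y - star (-y) + star z := fun y z => by
    rw [star_add, star_sub, star_add, star_one, star_star, star_neg]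
    abel
  have a := (H.tm_tor t0).mul ((H.tm_tor t0).st.cj u1)
  rw [← mul_assoc, ← mul_assoc, H.tor_cj t0 g1 g2, s1,
    H.eich_mul (g1.smul t) (g2.smul _) g1.neg g5,
    show t • w + -w = (t - 1) • w by rw [sub_smul, one_smul, sub_eq_add_neg]] at a
  have g6 : In e (star e) (t ^ 2 • v + star v - star (t • w) * -w) :=
    ((g2.smul _).add g5).sub (H.st t w ▸ (g4.smul t).mul g1.neg)
  generalize t ^ 2 • v + star v - star (t • w) * -w = q at a g6
  generalize (t - 1) • w = y at *
  have g7 : In e (star e) (star q) := by simpa only [star_star] using g6.st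
  have g8 : In e (fe e) (star y) := by simpa only [star_star, fe_star] using hy.st
  have b := H.eich_mul hy hz hy.neg g7
  rw [← s1, add_neg_cancel, star_zero, add_zero, sub_zero] at b
  have g9 : In e (star e) (z + star q - star y * -y) := (hz.add g7).sub (g8.mul hy.neg)
  have d := H.tv g9 (H.skew g9 (b ▸ mul_mem (H.eich hy hz hq) a.st.u))
  exact (d.mul a).of (by rw [← b, mul_assoc, a.u.1, mul_one])

end Hy

end Vale.Agent.P011UW
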