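import Mathlib.Algebra.Polynomial.Roots
import Mathlib.Algebra.Star.Unitary
import Mathlib.LinearAlgebra.Dual.Lemmas
import Mathlib.Tactic.NoncommRing
import Mathlib.Tactic.LinearCombination
import Mathlib.Tactic.FieldSimp

/-!
Isotropic forms of type `A`: polynomial maps, Peirce components, division in the corners.
-/

set_option autoImplicit false
set_option linter.all false

namespace Vale.Agent.P011UW

section

variable {k A : Type} [Field k] [Ring A] [Algebra k A]

/-- Polynomial curves. -/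
inductive Pm : (k → A) → Prop
  | const (a : A) : Pm fun _ => a
  | add {F G : k → A} : Pm F → Pm G → Pm fun l => F l + G l
  | smul {F : k → A} : Pm F → Pm fun l => l • F l

theorem Pm.of {F G : k → A} (h : Pm F) (e : ∀ l, G l = F l) : Pm G := (funext e : G = F) ▸ h

theorem Pm.cmul {F : k → A} (a : A) (h : Pm F) : Pm fun l => a * F l := by
  induction h with
  | const b => exact .const _
  | add _ _ b c => exact (b.add c).of fun l => mul_add _ _ _
  | smul _ b => exact b.smul.of fun l => mul_smul_comm _ _ _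

theorem Pm.mul {F G : k → A} (h : Pm F) (h' : Pm G) : Pm fun l => F l * G l := by
  induction h with
  | const b => exact h'.cmul b
  | add _ _ b c => exact (b.add c).of fun l => add_mul _ _ _
  | smul _ b => exact b.smul.of fun l => smul_mul_assoc _ _ _

theorem Pm.pol {F : k → A} (h : Pm F) (φ : A →ₗ[k] k) :
    ∃ p : Polynomial k, ∀ l, φ (F l) = p.eval l := by
  induction h with
  | const b => exact ⟨.C (φ b), fun l => Polynomial.eval_C.symm⟩
  | add _ _ b c =>
    obtain ⟨p, b⟩ := b
    obtain ⟨q, c⟩ := c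
    exact ⟨p + q, fun l => by rw [map_add, b, c, Polynomial.eval_add]⟩
  | smul _ b =>
    obtain ⟨p, b⟩ := b
    exact ⟨.X * p, fun l => by rw [map_smul, b, Polynomial.eval_mul, Polynomial.eval_X, smul_eq_mul]⟩

theorem Pm.fin {F : k → A} (h : Pm F) {l : k} (h0 : F l ≠ 0) : {l | F l = 0}.Finite := by
  obtain ⟨φ, e⟩ := Module.Projective.exists_dual_ne_zero k h0
  obtain ⟨p, hp⟩ := h.pol φ
  refine (Polynomial.rootSet_finite p k).subset fun t ht => ?_
  rw [Polynomial.mem_rootSet, Polynomial.coe_aeval_eq_eval, ← hp, ht, map_zero]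
  exact ⟨fun a => e (by rw [hp, a, Polynomial.eval_zero]), rfl⟩

variable [Infinite k]

theorem Pm.zero {F : k → A} (h : Pm F) (h0 : ∀ l, l • F l = 0) : F 0 = 0 := by
  by_contra e
  obtain ⟨l, -, hl⟩ := Set.infinite_univ.exists_notMem_finite ((h.fin e).insert 0)
  rw [Set.mem_insert_iff, not_or] at hl
  exact hl.2 ((smul_eq_zero.1 (h0 l)).resolve_left hl.1)

theorem cf2 {a b c d : A} (h : ∀ l : k, l • (a + l • (b + l • (c + l • d))) = 0) :
    a = 0 ∧ b = 0 := by
  have p : Pm fun l : k => b + l • (c + l • d) :=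
    (Pm.const b).add ((Pm.const c).add (Pm.const d).smul).smul
  have h1 : a = 0 := by simpa using ((Pm.const a).add p.smul).zero h
  refine ⟨h1, ?_⟩
  by_contra e
  obtain ⟨l, -, hl⟩ := Set.infinite_univ.exists_notMem_finite
    ((p.fin (l := 0) (by simpa using e)).insert 0)
  rw [Set.mem_insert_iff, not_or] at hl
  have := h l
  rw [h1, zero_add, smul_eq_zero, smul_eq_zero] at this
  exact hl.2 ((this.resolve_left hl.1).resolve_left hl.1)

theorem exists_t (k : Type) [Field k] [Infinite k] :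
    ∃ t : k, t ≠ 0 ∧ t - 1 ≠ 0 ∧ t ^ 2 - t⁻¹ ^ 2 ≠ 0 := by
  have p : Pm fun l : k => l * (l - 1) * (l * l * l * l - 1) := by
    have a : Pm fun l : k => l := (Pm.const (1 : k)).smul.of fun l => (mul_one l).symm
    exact (a.mul ((a.add (.const (-1))).of fun l => sub_eq_add_neg _ _)).mul
      (((((a.mul a).mul a).mul a).add (.const (-1))).of fun l => sub_eq_add_neg _ _)
  have q : ∃ l : k, l * (l - 1) * (l * l * l * l - 1) ≠ 0 := by
    by_contra! e
    have r : Pm fun l : k => (l - 1) * (l * l * l * l - 1) := by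
      have a : Pm fun l : k => l := (Pm.const (1 : k)).smul.of fun l => (mul_one l).symm
      exact ((a.add (.const (-1))).of fun l => sub_eq_add_neg _ _).mul
        (((((a.mul a).mul a).mul a).add (.const (-1))).of fun l => sub_eq_add_neg _ _)
    simpa using r.zero fun l => (mul_assoc _ _ _).symm.trans (e l)
  obtain ⟨t, ht⟩ := q
  rw [mul_ne_zero_iff, mul_ne_zero_iff] at ht
  refine ⟨t, ht.1.1, ht.1.2, fun e => ht.2 ?_⟩
  have := ht.1.1
  field_simp at e
  linear_combination e

variable {X : Type} [AddCommGroup X] [Module k X]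

variable (k) in
/-- Polynomial maps. -/
def PF (F : X → A) : Prop := ∀ x y, Pm fun l : k => F (x + l • y)

omit [Infinite k] in
theorem PF.const (a : A) : PF k fun _ : X => a := fun _ _ => .const a

omit [Infinite k] in
theorem PF.add {F G : X → A} (h : PF k F) (h' : PF k G) : PF k fun x => F x + G x :=
  fun x y => (h x y).add (h' x y)

omit [Infinite k] in
theorem PF.mul {F G : X → A} (h : PF k F) (h' : PF k G) : PF k fun x => F x * G x :=
  fun x y => (h x y).mul (h' x y)

omit [Infinite k] in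
theorem PF.sub {F G : X → A} (h : PF k F) (h' : PF k G) : PF k fun x => F x - G x :=
  fun x y => ((h x y).add ((h' x y).cmul (-1))).of fun l => by
    rw [neg_one_mul]; exact sub_eq_add_neg _ _

omit [Infinite k] in
theorem PF.lin (φ : X →ₗ[k] A) : PF k φ := fun x y =>
  ((Pm.const (φ x)).add (Pm.const (φ y)).smul).of fun l => by rw [map_add, map_smul]

theorem PF.two {F G : X → A} (h : PF k F) (h' : PF k G) (a : ∃ x, F x ≠ 0) (b : ∃ x, G x ≠ 0) :
    ∃ x, F x ≠ 0 ∧ G x ≠ 0 := by
  obtain ⟨x, a⟩ := a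
  obtain ⟨y, b⟩ := b
  obtain ⟨l, -, hl⟩ := Set.infinite_univ.exists_notMem_finite
    (((h x (y - x)).fin (l := 0) (by simpa using a)).union
      ((h' x (y - x)).fin (l := 1) (by simpa using b)))
  exact ⟨_, not_or.1 hl⟩

end

variable {k A : Type} [Field k] [Ring A] [StarRing A] [Algebra k A]

variable (k) in
/-- The centre and the two components. -/
structure Ce (c : A) : Prop where
  st : ∀ (a : k) (x : A), star (a • x) = a • star x
  cen : ∀ x, x * c = c * x
  tr : c + star c = 1
  un : IsUnit (c - star c)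
  pr : ∀ a b, a * c ≠ 0 → b * c ≠ 0 → ∃ x, a * x * b * c ≠ 0

/-- Both components are nonzero. -/
def Fu (c a : A) : Prop := a * c ≠ 0 ∧ a * star c ≠ 0

/-- The Peirce components. -/
structure In (p q x : A) : Prop where
  l : p * x = x
  r : x * q = x

/-- Inverse elements of Peirce components. -/
structure Iv (p q x y : A) : Prop where
  a : In p q x
  b : In q p y
  xy : x * y = p
  yx : y * x = q

/-- A minimal idempotent. -/
structure Dv (c p : A) : Prop where
  pp : p * p = p
  fu : Fu c p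
  dv : ∀ r, In p p r → Fu c r → ∃ r', Iv p p r r'

variable {c p q p' q' x y : A}

theorem In.z (h : In p q x) (h' : In p' q' y) (e : q * p' = 0) : x * y = 0 := by
  rw [← h.r, ← h'.l, mul_assoc, ← mul_assoc q, e, zero_mul, mul_zero]

theorem In.zl (h : In p q x) (e : y * p = 0) : y * x = 0 := by
  rw [← h.l, ← mul_assoc, e, zero_mul]

theorem In.zr (h : In p q x) (e : q * y = 0) : x * y = 0 := by
  rw [← h.r, mul_assoc, e, mul_zero]

theorem In.mul (h : In p q x) (h' : In p' q' y) : In p q' (x * y) :=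
  ⟨by rw [← mul_assoc, h.l], by rw [mul_assoc, h'.r]⟩

theorem In.mid (h : In p q x) (h' : In p' q' y) (a : A) : In p q' (x * a * y) :=
  ⟨by rw [← mul_assoc, ← mul_assoc, h.l], by rw [mul_assoc, h'.r]⟩

theorem In.st (h : In p q x) : In (star q) (star p) (star x) :=
  ⟨by rw [← star_mul, h.r], by rw [← star_mul, h.l]⟩

theorem In.add (h : In p q x) (h' : In p q y) : In p q (x + y) :=
  ⟨by rw [mul_add, h.l, h'.l], by rw [add_mul, h.r, h'.r]⟩

theorem In.neg (h : In p q x) : In p q (-x) := ⟨by rw [mul_neg, h.l], by rw [neg_mul, h.r]⟩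

theorem In.sub (h : In p q x) (h' : In p q y) : In p q (x - y) :=
  sub_eq_add_neg x y ▸ h.add h'.neg

theorem In.zero : In p q (0 : A) := ⟨mul_zero _, zero_mul _⟩

theorem In.smul (h : In p q x) (a : k) : In p q (a • x) :=
  ⟨by rw [mul_smul_comm, h.l], by rw [smul_mul_assoc, h.r]⟩

theorem In.cen (h : In p q x) (hc : ∀ x, x * c = c * x) : In p q (c * x) :=
  ⟨by rw [← mul_assoc, hc p, mul_assoc, h.l], by rw [mul_assoc, h.r]⟩

theorem Iv.symm (h : Iv p q x y) : Iv q p y x := ⟨h.b, h.a, h.yx, h.xy⟩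

theorem Iv.st (h : Iv p q x y) : Iv (star q) (star p) (star x) (star y) :=
  ⟨h.a.st, h.b.st, by rw [← star_mul, h.yx], by rw [← star_mul, h.xy]⟩

theorem Iv.uniq {y' : A} (h : Iv p q x y) (h' : Iv p q x y') : y = y' := by
  rw [← h.b.r, ← h'.xy, ← mul_assoc, h.yx, h'.b.l]

theorem Iv.neg (h : Iv p q x y) : Iv p q (-x) (-y) :=
  ⟨h.a.neg, h.b.neg, by rw [neg_mul_neg, h.xy], by rw [neg_mul_neg, h.yx]⟩

theorem Iv.mul {r x' y' : A} (h : Iv p q x y) (h' : Iv q r x' y') : Iv p r (x * x') (y' * y) :=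
  ⟨h.a.mul h'.a, h'.b.mul h.b, by rw [mul_assoc, ← mul_assoc x', h'.xy, h.b.l, h.xy],
    by rw [mul_assoc, ← mul_assoc y, h.yx, h'.a.l, h'.yx]⟩

theorem Iv.smul (h : Iv p q x y) {a : k} (ha : a ≠ 0) : Iv p q (a • x) (a⁻¹ • y) :=
  ⟨h.a.smul a, h.b.smul _, by rw [smul_mul_smul_comm, mul_inv_cancel₀ ha, one_smul, h.xy],
    by rw [smul_mul_smul_comm, inv_mul_cancel₀ ha, one_smul, h.yx]⟩

theorem ne_star {a b : A} (hc : ∀ x, x * b = b * x) (h : a * star b ≠ 0) : star a * b ≠ 0 :=
  fun e => h (by rw [← star_star a, ← star_mul, ← hc, e, star_zero])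

theorem PF.st {X : Type} [AddCommGroup X] [Module k X] (H : Ce k c) {F : X → A} (h : PF k F) :
    PF k fun x => star (F x) := fun x y => by
  have : ∀ G : k → A, Pm G → Pm fun l => star (G l) := fun G a => by
    induction a with
    | const b => exact .const _
    | add _ _ b c => exact (b.add c).of fun l => star_add _ _
    | smul _ b => exact b.smul.of fun l => H.st _ _
  exact this _ (h x y)

namespace Ce

variable (H : Ce k c)
include H

theorem cen' (x : A) : x * star c = star c * x := by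
  rw [← star_star x, ← star_mul, ← H.cen, star_mul]

theorem symm : Ce k (star c) := by
  refine ⟨H.st, H.cen', by rw [star_star, add_comm, H.tr], ?_, fun a b ha hb => ?_⟩
  · rw [star_star, ← neg_sub]
    exact H.un.neg
  · obtain ⟨x, hx⟩ := H.pr _ _ (ne_star H.cen hb) (ne_star H.cen ha)
    refine ⟨star x, fun e => hx ?_⟩
    have := congrArg star e
    rwa [star_mul, star_mul, star_mul, star_star, star_star, star_zero, ← H.cen,
      ← mul_assoc] at this

theorem pol {a b : A} (h : a + b = 0) (h' : c * a + star c * b = 0) : a = 0 ∧ b = 0 := by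
  have e : a = 0 := H.un.mul_right_eq_zero.1 (by
    rw [eq_neg_of_add_eq_zero_right h, mul_neg, ← sub_eq_add_neg, ← sub_mul] at h'
    exact h')
  exact ⟨e, by rwa [e, zero_add] at h⟩

theorem eq0 {a : A} (h : a * c = 0) (h' : a * star c = 0) : a = 0 := by
  rw [← mul_one a, ← H.tr, mul_add, h, h', add_zero]

theorem prl {a b : A} (ha : a * c ≠ 0) (h : ∀ x, a * x * b * c = 0) : b * c = 0 :=
  by_contra fun e => (H.pr a b ha e).elim fun x hx => hx (h x)

theorem prr {a b : A} (hb : b * c ≠ 0) (h : ∀ x, a * x * b * c = 0) : a * c = 0 :=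
  by_contra fun e => (H.pr a b e hb).elim fun x hx => hx (h x)

theorem fu_star {a : A} (h : Fu c a) : Fu c (star a) :=
  ⟨ne_star H.cen h.2, ne_star H.cen' (by rw [star_star]; exact h.1)⟩

theorem fu_l {a b : A} (h : Fu c (a * b)) : Fu c a :=
  ⟨fun e => h.1 (by rw [mul_assoc, H.cen, ← mul_assoc, e, zero_mul]),
    fun e => h.2 (by rw [mul_assoc, H.cen', ← mul_assoc, e, zero_mul])⟩

omit H in
theorem fu_r {a b : A} (h : Fu c (a * b)) : Fu c b :=
  ⟨fun e => h.1 (by rw [mul_assoc, e, mul_zero]), fun e => h.2 (by rw [mul_assoc, e, mul_zero])⟩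

omit H in
theorem fu_symm {a : A} (h : Fu c a) : Fu (star c) a := ⟨h.2, by rw [star_star]; exact h.1⟩

theorem dv_star (h : Dv c p) : Dv c (star p) :=
  ⟨by rw [← star_mul, h.pp], H.fu_star h.fu, fun r a b => by
    have a' := a.st
    rw [star_star] at a'
    obtain ⟨r', e⟩ := h.dv _ a' (H.fu_star b)
    have e' := e.st
    rw [star_star] at e'
    exact ⟨_, e'⟩⟩

variable [Infinite k]

theorem full {X : Type} [AddCommGroup X] [Module k X] {F : X → A} (h : PF k F)
    (a : ∃ x, F x * c ≠ 0) (b : ∃ x, F x * star c ≠ 0) : ∃ x, Fu c (F x) :=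
  (h.mul (.const c)).two (h.mul (.const _)) a b

theorem fu_mid {a b : A} (ha : Fu c a) (hb : Fu c b) : ∃ x, Fu c (a * x * b) :=
  H.full (((PF.const a).mul (.lin .id)).mul (.const b)) (H.pr a b ha.1 hb.1)
    (H.symm.pr a b ha.2 hb.2)

/-- Full elements of the Peirce components are invertible. -/
theorem inv (hp : Dv c p) (hq : Dv c q) (h : In p q x) (hx : Fu c x) : ∃ y, Iv p q x y := by
  have i1 : In p p p := ⟨hp.pp, hp.pp⟩
  have i2 : In q q q := ⟨hq.pp, hq.pp⟩
  obtain ⟨a, ha⟩ := H.fu_mid hx hp.fu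
  obtain ⟨b, hb⟩ := H.fu_mid hq.fu hx
  obtain ⟨r, hr⟩ := hp.dv _ (h.mid i1 a) ha
  obtain ⟨s, hs⟩ := hq.dv _ (i2.mid h b) hb
  have e1 : x * (q * a * p * r) = p := by
    rw [← mul_assoc, ← mul_assoc, ← mul_assoc, h.r, hr.xy]
  have e2 : s * (q * b * p) * x = q := by rw [mul_assoc, mul_assoc, h.l, hs.yx]
  have i3 : In q p (q * a * p * r) := (i2.mid i1 a).mul hr.b
  refine ⟨_, h, i3, e1, ?_⟩
  generalize q * a * p * r = z at e1 i3
  have e3 : s * (q * b * p) * x * z = z := by rw [e2, i3.l]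
  rw [mul_assoc (s * _), e1, mul_assoc s, mul_assoc (q * b), hp.pp] at e3
  rw [← e3, e2]

end Ce

end Vale.Agent.P011UW
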