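import Vale.Agent.P011UW.Gen

/-!
Isotropic forms of type `A`: a noncentral subgroup normalised by the transvections contains them.
-/

set_option autoImplicit false
set_option linter.all false

namespace Vale.Agent.P011UW

variable {k A : Type} [Field k] [Ring A] [StarRing A] [Algebra k A] {c e a b g x x' y z : A}

namespace Hy

variable (H : Hy k c e) [Infinite k]
include H

theorem cent0 {d : A} (G : Ce k d) (g1 : Fu d e) {Γ : A} (hΓ : Γ = g * d)
    (h : ∀ y x, In (fe e) e y → In (star e) e x → star x = -x →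
      star (e + (y + x) + -(c * (star y * y))) * Γ * (e + (y + x) + -(c * (star y * y))) = 0)
    (ha : a * e = a) : Γ * a = a * (Γ * e) := by
  obtain ⟨x0, x1, i, hx⟩ := H.ex
  have z0 : star (0 : A) = -0 := by rw [star_zero, neg_zero]
  have h0 : star e * Γ * e = 0 := by simpa using h 0 0 In.zero In.zero z0
  have h1 : ∀ y x, In (fe e) e y → In (star e) e x → star x = -x →
      star e * Γ * (y + x) + star (y + x) * Γ * e = 0 ∧ star (y + x) * Γ * (y + x) +
        star e * Γ * -(c * (star y * y)) + star (-(c * (star y * y))) * Γ * e = 0 :=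
    fun y x hy hx hs => cf2 (k := k) (c := star (y + x) * Γ * -(c * (star y * y)) +
      star (-(c * (star y * y))) * Γ * (y + x)) (d := star (-(c * (star y * y))) * Γ *
      -(c * (star y * y))) fun l => by
      have := h _ _ (hy.smul l) (hx.smul l) (by rw [H.st, hs, smul_neg])
      rw [← smul_add, H.st, smul_mul_assoc, mul_smul_comm, mul_smul_comm, mul_smul_comm,
        ← smul_neg, ← smul_neg] at this
      generalize -(c * (star y * y)) = z at *
      generalize y + x = n at *
      rw [← this]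
      simp only [star_add, H.st, mul_add, add_mul, smul_mul_assoc, mul_smul_comm, h0, smul_add]
      abel
  have cd : ∀ u v w : A, u * v * (d * w) = d * (u * v * w) := fun u v w => by
    rw [← mul_assoc, G.cen, mul_assoc]
  have cs : ∀ u v w : A, star (d * u) * v * w = star d * (star u * v * w) := fun u v w => by
    rw [star_mul, G.cen', mul_assoc, mul_assoc, mul_assoc]
  have a1 : ∀ y, In (fe e) e y → star e * Γ * y = 0 ∧ star y * Γ * e = 0 := fun y hy =>
    G.pol (by simpa using (h1 y 0 hy In.zero z0).1) (by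
      simpa only [add_zero, cd, cs] using (h1 _ 0 (hy.cen G.cen) In.zero z0).1)
  have a3 : ∀ w, In (star e) e w → star e * Γ * w = w * Γ * e := fun w hw => by
    have p : ∀ w, In (star e) e w →
        star e * Γ * w - w * Γ * e + -(star e * Γ * star w - star w * Γ * e) = 0 := fun w hw => by
      have hw' : In (star e) e (star w) := by simpa only [star_star] using hw.st
      rw [← (h1 0 _ In.zero (hw.sub hw') (by rw [star_sub, star_star, neg_sub])).1, zero_add,
        star_sub, star_star]
      noncomm_ring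
    refine sub_eq_zero.1 (G.pol (p w hw) ?_).1
    rw [← p _ (hw.cen G.cen), cd, cs, star_mul d, G.cen', ← mul_assoc _ (star d), G.cen' (_ * Γ)]
    noncomm_ring
  have h2 : ∀ y x, In (fe e) e y → In (star e) e x → star x = -x →
      star (y + x) * Γ * (y + x) = star y * y * Γ * e := fun y x hy hx hs => by
    obtain ⟨q1, q2⟩ := H.flip.quad (y := y) (by rwa [fe_st, star_star])
    rw [star_star] at q1
    have := (h1 y x hy hx hs).2
    rw [a3 _ q1, add_assoc, ← add_mul, ← add_mul, eq_neg_of_add_eq_zero_left q2, neg_mul,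
      neg_mul] at this
    exact add_neg_eq_zero.1 this
  have s1 := i.skew hx
  have a4 : e * Γ * star e = 0 := by
    have := h2 0 x1 In.zero i.b s1
    rw [zero_add, mul_zero, zero_mul, zero_mul, s1, neg_mul, neg_mul, neg_eq_zero] at this
    rw [← i.yx, ← i.xy, mul_assoc x0, mul_assoc x0, ← mul_assoc _ x1, this, zero_mul, mul_zero]
  have q1 : ∀ y, In (fe e) e y → star y * Γ * y = star y * y * Γ * e := fun y hy => by
    simpa using h2 y 0 hy In.zero z0
  have a5 : ∀ y, In (fe e) e y → e * Γ * y = 0 ∧ star y * Γ * star e = 0 := fun y hy => by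
    have p : ∀ y, In (fe e) e y → star x1 * Γ * y + star y * Γ * x1 = 0 := fun y hy => by
      have := h2 y x1 hy i.b s1
      have e1 := h2 0 x1 In.zero i.b s1
      rw [zero_add, mul_zero, zero_mul, zero_mul] at e1
      rw [star_add, add_mul, add_mul, mul_add, mul_add, q1 y hy, e1, add_zero, add_assoc,
        add_eq_left] at this
      rw [add_comm, this]
    obtain ⟨b1, b2⟩ := G.pol (p y hy) (by simpa only [cd, cs] using p _ (hy.cen G.cen))
    rw [s1, neg_mul, neg_mul, neg_eq_zero] at b1
    exact ⟨by rw [← i.xy, mul_assoc x0, mul_assoc x0, b1, mul_zero],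
      by rw [← i.yx, ← mul_assoc, b2, zero_mul]⟩
  have a6 : ∀ y y', In (fe e) e y → In (fe e) e y' → star y * Γ * y' = star y * y' * Γ * e :=
    fun y y' hy hy' => by
      have p : ∀ y', In (fe e) e y' → star y * Γ * y' - star y * y' * Γ * e +
          (star y' * Γ * y - star y' * y * Γ * e) = 0 := fun y' hy' => by
        have := sub_eq_zero.2 (q1 _ (hy.add hy'))
        simp only [star_add, mul_add, add_mul, q1 y hy, q1 y' hy'] at this
        rw [← this]
        abel
      refine sub_eq_zero.1 (G.pol (p y' hy') ?_).1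
      rw [← p _ (hy'.cen G.cen), cd, cs, cs, ← mul_assoc _ d, G.cen (star y)]
      noncomm_ring
  have a7 : ∀ r, In e e r → e * Γ * r = r * Γ * e := fun r hr => by
    have := congrArg (x0 * ·) (a3 _ (i.b.mul hr))
    rw [← mul_assoc _ x1, a3 _ i.b] at this
    simpa only [← mul_assoc, i.xy, hr.l, mul_assoc _ e r] using this
  have i1 : In e e (e * a) := ⟨by rw [← mul_assoc, H.ee], by rw [mul_assoc, ha]⟩
  have i2 : In (fe e) e (fe e * a) := ⟨by rw [← mul_assoc, H.ff], by rw [mul_assoc, ha]⟩
  have i3 : In (star e) e (star e * a) := ⟨by rw [← mul_assoc, H.ss], by rw [mul_assoc, ha]⟩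
  have sp : ∀ u, u * Γ * a = u * Γ * (e * a) + u * Γ * (fe e * a) + u * Γ * (star e * a) :=
    fun u => by rw [← mul_add, ← mul_add, ← split]
  have b1 : e * (Γ * a) = e * (a * (Γ * e)) := by
    rw [← mul_assoc, sp, a7 _ i1, (a5 _ i2).1, ← mul_assoc _ (star e), a4]
    simp only [mul_assoc, zero_mul, add_zero]
  have b3 : star e * (Γ * a) = star e * (a * (Γ * e)) := by
    rw [← mul_assoc, sp, a3 _ i3, (a1 _ i2).1, ← mul_assoc _ e, h0]
    simp only [mul_assoc, zero_mul, add_zero, zero_add]
  have b2 : fe e * (g * a - a * (g * e)) * d = 0 := G.prl (G.fu_star g1).1 fun p => by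
    have j := H.jf.mid H.ie (star p)
    have := sp (star (fe e * star p * e))
    rw [a6 _ _ j i2, ← mul_assoc _ e, (a1 _ j).2, ← mul_assoc _ (star e), (a5 _ j).2, star_mul,
      star_mul, star_star, fe_star, hΓ, mul_assoc _ _ (fe e * a), mul_assoc _ _ (fe e * a),
      ← mul_assoc (fe e), H.ff] at this
    simp only [mul_assoc, zero_mul, add_zero, zero_add, ← G.cen] at this
    simp only [mul_assoc, mul_sub, sub_mul, this, sub_self]
  rw [split e (Γ * a), split e (a * (Γ * e)), b1, b3, add_left_inj, add_right_inj, hΓ,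
    ← sub_eq_zero, ← b2]
  simp only [mul_assoc, mul_sub, sub_mul, ← G.cen]

theorem cent (hg : g ∈ unitary A) {d : A} (hd : d = c ∨ d = star c)
    (h : ∀ y x, In (fe e) e y → In (star e) e x → star x = -x →
      star e * (star (1 + y - star y + (x - c * (star y * y))) * g *
        (1 + y - star y + (x - c * (star y * y))) * e) * d = 0) (b : A) : g * b = b * g := by
  obtain ⟨G, g1, -⟩ := H.ce hd
  have h1 := fun a => H.cent0 (a := a) G g1 (g := g) rfl fun y x hy hx hs => by
    have hy' : In (star e) (fe e) (star y) := by simpa only [fe_star] using hy.st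
    have e1 : (1 + y - star y + (x - c * (star y * y))) * e =
        e + (y + x) + -(c * (star y * y)) := by
      rw [add_mul, sub_mul, add_mul, sub_mul, one_mul, hy.r, hy'.zr H.fe0, hx.r,
        ((hy'.mul hy).cen H.cen).r]
      abel
    rw [← h y x hy hx hs, ← e1, star_mul]
    simp only [mul_assoc, ← G.cen]
  have h2 : ∀ b, (g * b - b * g) * d = 0 := fun b => G.prr g1.1 fun p => by
    have e1 := h1 (b * (p * e)) (by rw [mul_assoc, mul_assoc, H.ee])
    rw [mul_assoc b, ← h1 (p * e) (by rw [mul_assoc, H.ee])] at e1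
    simp only [mul_assoc, ← G.cen] at e1
    simp only [mul_assoc, sub_mul, e1, sub_self]
  refine sub_eq_zero.1 (G.eq0 (h2 b) ?_)
  have h3 := congrArg (fun x => g * star x * g) (h2 (star b))
  simp only [star_mul, star_sub, star_star, star_zero, mul_zero, zero_mul] at h3
  rw [← mul_assoc, G.cen' g, mul_assoc, mul_assoc, ← G.cen', sub_mul, mul_sub, mul_assoc b,
    hg.1, mul_one, ← mul_assoc, ← mul_assoc, hg.2, one_mul] at h3
  exact h3

theorem opp (hg : g ∈ unitary A) (h : ¬∀ b, g * b = b * g) :
    ∃ t β γ, Tm e t ∧ Iv (star e) e β γ ∧ star t * g * t * e = β := by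
  obtain ⟨t, t1, t2⟩ := H.gen (F := fun u => star e * (star u * g * u * e))
    ((PF.const _).mul ((((H.pf_fam.st H.toCe).mul (.const _)).mul H.pf_fam).mul (.const _)))
    fun d hd a => h (H.cent hg hd a)
  have ha : star t * g * t * e * e = star t * g * t * e := by rw [mul_assoc _ e, H.ee]
  have h0 : star (star t * g * t * e) * (star t * g * t * e) = 0 := by
    rw [star_mul, mul_assoc (star e), ← mul_assoc (star (_ * t)), (mul_mem (mul_mem t1.st.u hg) t1.u).1, one_mul,
      H.se]
  generalize hA : star t * g * t * e = a at *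
  obtain ⟨γ, j⟩ := H.toCe.inv H.dv' H.dv ⟨by rw [← mul_assoc, H.ss], by rw [mul_assoc, ha]⟩ t2
  have i1 := H.jf.mid j.b a
  have i2 := H.ie.mid j.b a
  have i3 : In e (fe e) (star (fe e * a * γ)) := by simpa only [star_star, fe_star] using i1.st
  have t3 := H.tm_eich i1 i2 (H.iso_skew j h0)
  have e1 : (1 + fe e * a * γ - star (fe e * a * γ) + e * a * γ) * e = e := by
    rw [add_mul, sub_mul, add_mul, one_mul, i1.zr H.se, i2.zr H.se, i3.zr H.fe0, add_zero, sub_zero,
      add_zero]
  have e2 : (1 + fe e * a * γ - star (fe e * a * γ) + e * a * γ) * (star e * a) = a := by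
    rw [add_mul, sub_mul, add_mul, one_mul, i3.z j.a H.fs, mul_assoc _ γ, mul_assoc _ γ, j.yx,
      mul_assoc, mul_assoc, ha]
    nth_rw 4 [split e a]
    abel
  generalize 1 + fe e * a * γ - star (fe e * a * γ) + e * a * γ = u at *
  refine ⟨_, _, γ, t1.mul t3, j, ?_⟩
  rw [star_mul, mul_assoc, mul_assoc t, e1, mul_assoc, mul_assoc, ← mul_assoc (star t),
    ← mul_assoc _ t, hA]
  nth_rw 1 [← e2]
  rw [← mul_assoc, t3.u.1, one_mul]

/-- **A noncentral subgroup normalised by the transvections contains them.** -/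
theorem TT_le [FiniteDimensional k A] (N : Subgroup (unitary A))
    (hN : ∀ t ∈ TT e, ∀ g ∈ N, t * g * t⁻¹ ∈ N) {g : unitary A} (hg : g ∈ N)
    (h : ¬∀ b, g.1 * b = b * g.1) : TT e ≤ N := by
  let P : A → Prop := fun a => ∃ u ∈ N, u.1 = a
  have p1 : ∀ {a b}, P a → P b → P (a * b) := by
    rintro _ _ ⟨u, a, rfl⟩ ⟨v, b, rfl⟩
    exact ⟨u * v, mul_mem a b, rfl⟩
  have p2 : ∀ {a}, P a → P (star a) := by
    rintro _ ⟨u, a, rfl⟩
    exact ⟨u⁻¹, inv_mem a, rfl⟩
  have p3 : ∀ {t a}, Tm e t → P a → P (t * a * star t) := by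
    rintro _ _ ⟨u, a, rfl⟩ ⟨v, b, rfl⟩
    exact ⟨_, hN u a v b, rfl⟩
  obtain ⟨t, β, γ, t1, j, e1⟩ := H.opp g.2 h
  have g1 := p3 t1.st ⟨g, hg, rfl⟩
  rw [star_star] at g1
  have g2 : star t * g.1 * t ∈ unitary A := mul_mem (mul_mem t1.st.u g.2) t1.u
  generalize star t * g.1 * t = u at *
  have j' := j.st
  rw [star_star] at j'
  have n1 : ∀ x, In e (star e) x → star x = -x → P ((1 + β * x * star β) * star (1 + x)) :=
    fun x hx hs => by
      have := p1 g1 (p3 (H.tv hx hs) (p2 g1))
      rwa [← mul_assoc, ← mul_assoc, mul_add, add_mul, mul_one, g2.2, ← hx.l, ← hx.r,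
        ← mul_assoc u, ← mul_assoc (u * e), mul_assoc _ (star e), ← star_mul, e1, hx.r, hx.l] at this
  obtain ⟨s, s0, -, s1⟩ := exists_t k
  have n2 : ∀ x, In e (star e) x → star x = -x → P (1 + (s ^ 2 - s⁻¹ ^ 2) • (β * x * star β)) :=
    fun x hx hs => by
      have i1 := j.a.mid j'.a x
      have i2 : star (β * x * star β) = -(β * x * star β) := by
        rw [star_mul, star_mul, star_star, hs, neg_mul, mul_neg, mul_assoc]
      have m1 := H.tm_tor s0
      have c1 := H.tor_cj s0 In.zero hx
      have c2 := H.flip.tor_cj (inv_ne_zero s0) (z := β * x * star β) In.zero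
        (by rwa [star_star])
      rw [fe_st, star_star, inv_inv, add_right_comm] at c2
      simp only [star_zero, smul_zero, add_zero, sub_zero] at c1 c2
      have a1 := n1 _ (hx.smul (s ^ 2)) (by rw [H.st, hs, smul_neg])
      have a2 := p3 m1 (n1 x hx hs)
      have u1 := (H.tv (hx.smul (s ^ 2)) (by rw [H.st, hs, smul_neg])).u
      generalize fe e + s • e + s⁻¹ • star e = m at *
      have e2 : m * ((1 + β * x * star β) * star (1 + x)) * star m =
          (1 + s⁻¹ ^ 2 • (β * x * star β)) * star (1 + s ^ 2 • x) := by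
        rw [← c1, ← c2, star_mul, star_mul, star_star]
        simp only [mul_assoc]
        rw [← mul_assoc (star m), m1.u.1, one_mul]
      have := p1 a1 (p2 (e2 ▸ a2))
      rwa [star_mul, star_star, mul_assoc, ← mul_assoc (star _), u1.1, one_mul, star_add, star_one,
        H.st, i2, mul_smul_comm, smul_mul_assoc, mul_add, mul_one, add_mul, one_mul,
        smul_mul_smul_comm, i1.z i1.neg H.es, smul_zero, add_zero, smul_neg, add_assoc,
        ← sub_eq_add_neg, ← sub_smul] at this
  have n3 : ∀ x, In e (star e) x → star x = -x → P (1 + x) := fun x hx hs => by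
    have a1 := n2 _ (hx.smul (s ^ 2 - s⁻¹ ^ 2)⁻¹) (by rw [H.st, hs, smul_neg])
    rw [mul_smul_comm, smul_mul_assoc, smul_smul, mul_inv_cancel₀ s1, one_smul] at a1
    have := p1 (p2 (n1 x hx hs)) a1
    obtain ⟨v, -, hv⟩ := a1
    rwa [star_mul, star_star, mul_assoc, ← hv, v.2.1, mul_one] at this
  refine (Subgroup.closure_le N).2 fun v hv => ?_
  obtain ⟨w, hw, hv⟩ := Group.mem_conjugatesOfSet_iff.1 hv
  obtain ⟨q, rfl⟩ := isConj_iff.1 hv
  obtain ⟨t, l, t2, l1, e2⟩ := H.tl q.2
  have e3 : w.1 = 1 + (w.1 - 1) := (add_sub_cancel _ _).symm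
  have hs := H.skew hw (e3 ▸ w.2)
  obtain ⟨v, a, b⟩ := p3 t2 (n3 (l * (w.1 - 1) * star l)
    ⟨by rw [← mul_assoc, ← mul_assoc, ← l1.e', mul_assoc l, In.l hw],
      by rw [mul_assoc, ← star_mul, ← l1.e', star_mul, ← mul_assoc, mul_assoc l, In.r hw]⟩
    (by rw [star_mul, star_mul, star_star, hs, neg_mul, mul_neg, mul_assoc]))
  refine (Subtype.ext (b.trans ?_) : v = q * w * q⁻¹) ▸ a
  show _ = q.1 * w.1 * star q.1
  rw [e2, mul_sub, sub_mul, mul_one, l1.u.2, add_sub_cancel, star_mul]
  simp only [mul_assoc]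

end Hy

end Vale.Agent.P011UW
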