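import Vale.Agent.P011UW.IF
import Vale.Agent.P011UW.Nrm

/-!
Isotropic forms of type `A`: the corner ring and its group of units.
-/

set_option autoImplicit false
set_option linter.all false

open Matrix
open scoped commutatorElement

namespace Vale.Agent.P011UW

open Vale.Agent.P011L

section

variable (k : Type) {A : Type} [Field k] [Ring A] [StarRing A] [Algebra k A]

/-- The corner. -/
def cS (p : A) : NonUnitalSubalgebra k A where
  carrier := {x | In p p x}
  add_mem' := In.add
  zero_mem' := In.zero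
  mul_mem' := In.mul
  smul_mem' := fun a _ h => In.smul h a

/-- The corner ring. -/
def Co {p : A} (_ : p * p = p) : Type := cS k p

variable {p : A} (h : p * p = p)

instance : Ring (Co k h) where
  __ : NonUnitalRing (Co k h) := inferInstanceAs (NonUnitalRing (cS k p))
  one := ⟨p, h, h⟩
  one_mul r := Subtype.ext r.2.l
  mul_one r := Subtype.ext r.2.r

instance : Module k (Co k h) := inferInstanceAs (Module k (cS k p))

instance : Algebra k (Co k h) := Algebra.ofModule
  (fun r x y => Subtype.ext (smul_mul_assoc r x.1 y.1))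
  fun r x y => Subtype.ext (mul_smul_comm r x.1 y.1)

instance [FiniteDimensional k A] : FiniteDimensional k (Co k h) :=
  .of_injective (⟨⟨Subtype.val, fun _ _ => rfl⟩, fun _ _ => rfl⟩ : Co k h →ₗ[k] A)
    Subtype.val_injective

variable {k h}

theorem Co.iv (u : (Co k h)ˣ) : Iv p p u.1.1 (u⁻¹).1.1 :=
  ⟨u.1.2, (u⁻¹).1.2, congrArg Subtype.val u.mul_inv, congrArg Subtype.val u.inv_mul⟩

/-- Units of the corner. -/
def Co.un {r r' : A} (i : Iv p p r r') : (Co k h)ˣ :=
  ⟨⟨r, i.a⟩, ⟨r', i.b⟩, Subtype.ext i.xy, Subtype.ext i.yx⟩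

end

theorem ar (ski : SKI) (usk : USK) {k R K : Type} [Field k] [Ring R] [StarRing R] [Algebra k R]
    [FiniteDimensional k R] [Field K] {d : ℕ} (f : R →+* Matrix (Fin d) (Fin d) K) (hk : Glob k)
    (hd : 0 < d) (hf : Submodule.span K (Set.range f) = ⊤)
    (hs : ∀ (a : k) (x : R), star (a • x) = a • star x) {c : R} (cen : ∀ x, x * c = c * x)
    (tr : c + star c = 1) (hne : star c ≠ c) (dv : ∀ r, Fu c r → IsUnit r)
    (di : (c * c = c ∧ f c = 1) ∨ ∀ r, r ≠ 0 → Fu c r) (H : Subgroup Rˣ)
    (hH : ∀ s : Rˣ, star (s : R) = s → s ∈ H) (u : Rˣ)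
    (hu : (f (star (u : R))).det = (f u).det) : u ∈ H := by
  haveI : Nonempty (Fin d) := ⟨⟨0, hd⟩⟩
  haveI : Nontrivial R := f.domain_nontrivial
  rcases di with ⟨cc, fc⟩ | di
  swap
  · letI := DivisionRing.ofIsUnitOrEqZero fun r : R => or_iff_not_imp_right.2 fun a => dv r (di r a)
    exact usk k R K d f hk hd hf hs ⟨c, cen, hne⟩ H hH u hu
  have c1 : star c * c = 0 := by rw [eq_sub_of_add_eq' tr, sub_mul, one_mul, cc, sub_self]
  have c2 : c * star c = 0 := by rw [← cen, c1]
  have c3 : star c * star c = star c := by rw [← star_mul, cc]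
  have c4 : star c ≠ 0 := fun e => one_ne_zero (by
    rw [← fc, ← star_star c, e, star_zero, map_zero])
  let π : R →* Co k cc :=
    { toFun := fun r => ⟨r * c, by rw [← mul_assoc, ← cen, mul_assoc, cc], by rw [mul_assoc, cc]⟩
      map_one' := Subtype.ext (one_mul c)
      map_mul' := fun r s => Subtype.ext (by
        show r * s * c = r * c * (s * c)
        rw [mul_assoc r c, ← mul_assoc c, ← cen, mul_assoc s, cc, mul_assoc]) }
  let ν : Co k cc →* R :=
    { toFun := fun r => r.1 + star c
      map_one' := tr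
      map_mul' := fun r s => by
        show r.1 * s.1 + star c = _
        rw [add_mul, mul_add, mul_add, r.2.zr c2, s.2.zl c1, c3, add_zero, zero_add] }
  let g : Co k cc →+* Matrix (Fin d) (Fin d) K :=
    { toFun := fun r => f r.1
      map_one' := fc
      map_mul' := fun r s => map_mul f r.1 s.1
      map_zero' := map_zero f
      map_add' := fun r s => map_add f r.1 s.1 }
  have g1 : ∀ r, g (π r) = f r := fun r => (map_mul f r c).trans (by rw [fc, mul_one])
  haveI : Nontrivial (Co k cc) := g.domain_nontrivial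
  letI := DivisionRing.ofIsUnitOrEqZero fun r : Co k cc => or_iff_not_imp_right.2 fun a => by
    have e : π (ν r) = r := Subtype.ext (by
      show (r.1 + star c) * c = r.1
      rw [add_mul, c1, add_zero, r.2.r])
    refine e ▸ (dv (ν r) ⟨fun b => a (e ▸ Subtype.ext b), ?_⟩).map π
    show (r.1 + star c) * star c ≠ 0
    rwa [add_mul, r.2.zr c2, c3, zero_add]
  have m1 : ∀ a b : Co k cc, (a.1 + star a.1) * (b.1 + star b.1) = (a * b).1 + star (b * a).1 :=
    fun a b => by
      show _ = a.1 * b.1 + star (b.1 * a.1)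
      rw [add_mul, mul_add, mul_add, a.2.z b.2.st c2, a.2.st.z b.2 c1, star_mul, add_zero, zero_add]
  let s : (Co k cc)ˣ → Rˣ := fun a => ⟨a.1.1 + star a.1.1, (a⁻¹).1.1 + star (a⁻¹).1.1,
    by rw [m1, a.mul_inv, a.inv_mul]; exact tr, by rw [m1, a.mul_inv, a.inv_mul]; exact tr⟩
  have s1 : ∀ a, s a ∈ H := fun a => hH _ (by
    show star (a.1.1 + star a.1.1) = a.1.1 + star a.1.1
    rw [star_add, star_star, add_comm])
  have s2 : commutator (Co k cc)ˣ ≤ H.comap (Units.map ν) :=
    Subgroup.commutator_le.2 fun a _ b _ => by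
      have e : Units.map ν ⁅a, b⁆ = s a * s b * s (b * a)⁻¹ := Units.ext (by
        show (⁅a, b⁆ : (Co k cc)ˣ).1.1 + star c =
          (a.1.1 + star a.1.1) * (b.1.1 + star b.1.1) * (((b * a)⁻¹).1.1 + star ((b * a)⁻¹).1.1)
        rw [m1, add_mul, mul_add, mul_add, (a.1 * b.1).2.z ((b * a)⁻¹).1.2.st c2,
          (b.1 * a.1).2.st.z ((b * a)⁻¹).1.2 c1, ← star_mul, add_zero, zero_add,
          commutatorElement_def, mul_assoc (a * b), ← _root_.mul_inv_rev]
        exact congrArg (_ + star ·) (Co.iv (b * a)).yx.symm)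
      exact Subgroup.mem_comap.2 (e ▸ mul_mem (mul_mem (s1 _) (s1 _)) (s1 _))
  have s3 := s2 (ski k (Co k cc) K d g hk hd (eq_top_iff.2 (hf.ge.trans (Submodule.span_mono
    fun _ ⟨r, e⟩ => ⟨π r, (g1 r).trans e⟩))) (Units.map π (u * (star u)⁻¹)) (by
      rw [Units.coe_map, g1, Units.val_mul, map_mul, det_mul, ← hu, ← det_mul, ← map_mul]
      exact (congrArg (fun x => (f x).det) (star u).mul_inv).trans (by rw [map_one, det_one])))
  have e : u = Units.map ν (Units.map π (u * (star u)⁻¹)) * s (Units.map π (star u)) :=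
    Units.ext (by
      show u.1 = (u.1 * ((star u)⁻¹).1 * c + star c) * (star u.1 * c + star (star u.1 * c))
      rw [star_mul, star_star, add_mul, mul_add, mul_add, mul_assoc _ c (star c * _),
        ← mul_assoc c (star c), c2, zero_mul, mul_zero, cen (star u.1), ← mul_assoc (star c), c1,
        zero_mul, ← mul_assoc (star c), c3, add_zero, zero_add, mul_assoc _ c, ← mul_assoc c, cc,
        ← cen, mul_assoc u.1, ← mul_assoc _ (star u.1)]
      rw [show ((star u)⁻¹).1 * star u.1 = 1 from (star u).inv_mul, one_mul, cen, ← add_mul, tr,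
        one_mul])
  exact e ▸ mul_mem s3 (s1 _)

theorem exists_pq {K : Type} [Field K] {n : ℕ} {E : Matrix (Fin n) (Fin n) K} (h : E * E = E) :
    ∃ (d : ℕ) (P : Matrix (Fin n) (Fin d) K) (Q : Matrix (Fin d) (Fin n) K),
      P * Q = E ∧ Q * P = 1 := by
  let W := LinearMap.range (toLin' E)
  let b := Module.finBasis K W
  refine ⟨_, LinearMap.toMatrix b (Pi.basisFun K _) W.subtype,
    LinearMap.toMatrix (Pi.basisFun K _) b (toLin' E).rangeRestrict, ?_, ?_⟩
  · rw [← LinearMap.toMatrix_comp, LinearMap.toMatrix_eq_toMatrix']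
    exact LinearMap.toMatrix'_toLin' E
  · rw [← LinearMap.toMatrix_comp, ← LinearMap.toMatrix_id b]
    refine congrArg _ (LinearMap.ext fun ⟨_, x, rfl⟩ => Subtype.ext ?_)
    show E *ᵥ (E *ᵥ x) = E *ᵥ x
    rw [mulVec_mulVec, h]

variable {k A K : Type} [Field k] [Ring A] [StarRing A] [Algebra k A] [Field K] {n : ℕ}

theorem exists_rep {p : A} (h : p * p = p) (g : A →+* Matrix (Fin n) (Fin n) K) (h0 : g p ≠ 0)
    (hg : Submodule.span K (Set.range g) = ⊤) :
    ∃ (d : ℕ) (f : Co k h →+* Matrix (Fin d) (Fin d) K), 0 < d ∧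
      Submodule.span K (Set.range f) = ⊤ ∧ (∀ r, (f r).det = (g (r.1 + (1 - p))).det) ∧
      ∀ r, g r.1 = g p → f r = 1 := by
  obtain ⟨d, P, Q, a, b⟩ := exists_pq (E := g p) (by rw [← map_mul, h])
  have e1 : ∀ r : Co k h, P * (Q * g r.1 * P) * Q = g r.1 := fun r => by
    rw [Matrix.mul_assoc P, Matrix.mul_assoc _ P, a, Matrix.mul_assoc Q, ← map_mul, r.2.r,
      ← Matrix.mul_assoc, a, ← map_mul, r.2.l]
  have e2 : Q * g p * P = 1 := by
    rw [← a, ← Matrix.mul_assoc, b, Matrix.one_mul, b]
  let f : Co k h →+* Matrix (Fin d) (Fin d) K :=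
    { toFun := fun r => Q * g r.1 * P
      map_one' := e2
      map_mul' := fun r s => by
        show Q * g (r.1 * s.1) * P = _
        rw [Matrix.mul_assoc (Q * g r.1), ← Matrix.mul_assoc P, ← Matrix.mul_assoc P, a, ← map_mul,
          s.2.l, map_mul]
        simp only [Matrix.mul_assoc]
      map_zero' := by
        show Q * g 0 * P = 0
        rw [map_zero, Matrix.mul_zero, Matrix.zero_mul]
      map_add' := fun r s => by
        show Q * g (r.1 + s.1) * P = _
        rw [map_add, Matrix.mul_add, Matrix.add_mul] }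
  refine ⟨d, f, Nat.pos_of_ne_zero fun e => h0 ?_, eq_top_iff.2 fun X _ => ?_, fun r => ?_,
    fun r e => (congrArg (Q * · * P) e).trans e2⟩
  · subst e
    rw [← a, Subsingleton.elim P 0, Matrix.zero_mul]
  · have key : ∀ Y ∈ Submodule.span K (Set.range g),
        Q * Y * P ∈ Submodule.span K (Set.range f) := fun Y hY => by
      induction hY using Submodule.span_induction with
      | mem Y hY =>
        obtain ⟨x, rfl⟩ := hY
        refine Submodule.subset_span ⟨⟨p * x * p, In.mid ⟨h, h⟩ ⟨h, h⟩ x⟩, ?_⟩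
        show Q * g (p * x * p) * P = _
        rw [map_mul, map_mul, ← a]
        simp only [← Matrix.mul_assoc, b, Matrix.one_mul]
        rw [Matrix.mul_assoc _ Q, b, Matrix.mul_one]
      | zero => rw [Matrix.mul_zero, Matrix.zero_mul]; exact zero_mem _
      | add _ _ _ _ u v => rw [Matrix.mul_add, Matrix.add_mul]; exact add_mem u v
      | smul c _ _ u => rw [Matrix.mul_smul, Matrix.smul_mul]; exact Submodule.smul_mem _ c u
    have := key (P * X * Q) (hg ▸ trivial)
    rwa [Matrix.mul_assoc Q, Matrix.mul_assoc _ Q, b, Matrix.mul_one, ← Matrix.mul_assoc, b,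
      Matrix.one_mul] at this
  · have e3 : g (r.1 + (1 - p)) = 1 + P * ((f r - 1) * Q) := by
      rw [map_add, map_sub, map_one, ← e1 r, ← a, Matrix.sub_mul, Matrix.mul_sub, Matrix.one_mul,
        ← Matrix.mul_assoc P (f r)]
      exact (add_sub_assoc _ _ _).symm.trans ((congrArg (· - _) (add_comm _ _)).trans
        (add_sub_assoc _ _ _))
    rw [e3, det_one_add_mul_comm, Matrix.mul_assoc, b, Matrix.mul_one, add_sub_cancel]

end Vale.Agent.P011UW
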