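import Vale.Agent.P011UW.Grp
import Mathlib.RingTheory.Finiteness.Basic
import Mathlib.RingTheory.Noetherian.Basic

/-!
Isotropic forms of type `A`: the unitary group is generated by the transvections and the units of
the corner.
-/

set_option autoImplicit false
set_option linter.all false

namespace Vale.Agent.P011UW

variable {k A : Type} [Field k] [Ring A] [StarRing A] [Algebra k A]

/-- The Levi subgroup of the plane. -/
structure Lm (e l : A) : Prop where
  u : l ∈ unitary A
  e' : l * e = e * l
  f : l * fe e = fe e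

/-- The product of the two groups. -/
def TL (e a : A) : Prop := ∃ t l, Tm e t ∧ Lm e l ∧ a = t * l

/-- The family of Eichler maps. -/
def fam (c e : A) (p : A × A) : A :=
  1 + fe e * p.1 * e - star (fe e * p.1 * e) + (star e * (p.2 - star p.2) * e -
    c * (star (fe e * p.1 * e) * (fe e * p.1 * e)))

variable {c e a b g x x' y z : A}

theorem Tm.one : Tm e 1 := ⟨1, one_mem _, rfl⟩

theorem Tm.tl (h : Tm e a) : TL e a :=
  ⟨a, 1, h, ⟨one_mem _, by rw [one_mul, mul_one], one_mul _⟩, (mul_one a).symm⟩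

theorem Lm.mul (h : Lm e a) (h' : Lm e b) : Lm e (a * b) :=
  ⟨mul_mem h.u h'.u, by rw [mul_assoc, h'.e', ← mul_assoc, h.e', mul_assoc],
    by rw [mul_assoc, h'.f, h.f]⟩

theorem TL.mul (h : TL e a) (h' : TL e b) : TL e (a * b) := by
  obtain ⟨t, l, h1, h2, rfl⟩ := h
  obtain ⟨t', l', h3, h4, rfl⟩ := h'
  refine ⟨_, _, h1.mul (h3.cj h2.u), h2.mul h4, ?_⟩
  simp only [mul_assoc]
  rw [← mul_assoc (star l), h2.u.1, one_mul]

theorem fix_st (hg : g ∈ unitary A) (h : g * a = a) : star a * g = star a := by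
  have : star g * a = a := by
    nth_rw 1 [← h]
    rw [← mul_assoc, hg.1, one_mul]
  rw [← star_star g, ← star_mul, this]

theorem split (e a : A) : a = e * a + fe e * a + star e * a := by
  rw [← add_mul, ← add_mul, fe_sum, one_mul]

namespace Hy

variable (H : Hy k c e)
include H

theorem fix (hg : g ∈ unitary A) (h : g * e = e) (h' : g * fe e = fe e) : Tm e g := by
  have h1 := fix_st hg h
  have h2 := fix_st hg h'
  rw [fe_star] at h2
  have i : In e (star e) (g - 1) := by
    constructor
    · rw [split e (g - 1), mul_sub (fe e), mul_sub (star e), h1, h2, mul_one, mul_one, sub_self,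
        sub_self, add_zero, add_zero, ← mul_assoc, H.ee]
    · have := congrArg ((g - 1) * ·) (fe_sum (e := e))
      simp only [mul_one] at this
      rwa [mul_add, mul_add, sub_mul g 1 e, sub_mul g 1 (fe e), h, h', one_mul, one_mul, sub_self,
        sub_self, zero_add, zero_add] at this
  have e1 : g = 1 + (g - 1) := (add_sub_cancel _ _).symm
  exact (H.tv i (H.skew i (e1 ▸ hg))).of e1

theorem lev {r r' : A} (h : Iv e e r r') : Lm e (fe e + r + star r') := by
  have s := h.st
  refine ⟨⟨?_, ?_⟩, ?_, ?_⟩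
  iterate 2
    simp only [star_add, fe_star, star_star, mul_add, add_mul, H.ff, h.a.zl H.fe0, h.b.zl H.fe0,
      s.a.zl H.fs, s.b.zl H.fs, h.a.zr H.ef, h.b.zr H.ef, s.a.zr H.sf, s.b.zr H.sf, h.xy, h.yx,
      s.xy, s.yx, s.a.z h.a H.se, h.a.z s.a H.es, h.b.z s.b H.es, s.b.z h.b H.se,
      ← fe_sum (e := e)]
    abel
  · simp only [mul_add, add_mul, H.ef, H.fe0, h.a.l, h.a.r, s.b.zr H.se, s.b.zl H.es]
  · simp only [add_mul, H.ff, h.a.zr H.ef, s.b.zr H.sf, add_zero]

theorem iso_skew {γ : A} (h : Iv (star e) e (star e * a) γ) (h0 : star a * a = 0) :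
    e * a * γ + star (e * a * γ) + star (fe e * a * γ) * (fe e * a * γ) = 0 := by
  have h1 : star γ * star a * e = e := by
    rw [← star_star e, ← star_mul, ← star_mul, ← mul_assoc, h.xy]
  have h2 : star γ * star a * (e + fe e + star e) * a * γ = 0 := by
    rw [fe_sum, mul_one, mul_assoc (star γ), h0, mul_zero, zero_mul]
  rw [mul_add, mul_add, add_mul, add_mul, add_mul, add_mul, h1, mul_assoc _ (star e),
    mul_assoc _ (star e * a) γ, h.xy] at h2
  rw [← h2, star_mul, star_mul, star_mul, star_mul, fe_star, mul_assoc (star γ) (_ * fe e),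
    mul_assoc (star a), ← mul_assoc (fe e), ← mul_assoc (fe e), H.ff]
  noncomm_ring

variable [Infinite k]

theorem cell {γ : A} (hg : g ∈ unitary A) (hf : g * fe e = fe e)
    (h : Iv (star e) e (star e * (g * e)) γ) : TL e g := by
  obtain ⟨x, x', i, hx⟩ := H.ex
  have h2 := fix_st hg hf
  rw [fe_star] at h2
  have h3 : fe e * (g * e) = 0 := by rw [← mul_assoc, h2, H.fe0]
  have h4 := H.iso_skew h (by
    rw [star_mul, mul_assoc, ← mul_assoc (star g), hg.1, one_mul, H.se])
  rw [h3, zero_mul, mul_zero, add_zero] at h4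
  have i1 : In e e (e * (g * e)) := mul_assoc e g e ▸ H.ie.mid H.ie g
  have i2 := i1.mul h.b
  have t1 := H.tv i2.neg (by rw [star_neg, eq_neg_of_add_eq_zero_right h4])
  have t2 := H.tm_weyl i hx
  have l := H.lev (i.mul h)
  have h5 : (1 + -(e * (g * e) * γ)) * (g * e) = star e * (g * e) := by
    rw [add_mul, one_mul, neg_mul, ← i2.r, mul_assoc _ (star e), mul_assoc _ γ, h.yx, i1.r]
    nth_rw 1 [split e (g * e)]
    rw [h3]
    abel
  have t3 := H.fix (mul_mem (mul_mem (mul_mem (Unitary.star_mem l.u) t2.u) t1.u) hg) (by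
    rw [mul_assoc, mul_assoc, h5, mul_assoc, sub_mul, add_mul, h.a.zl H.fs, i.b.z h.a H.es,
      zero_add, sub_zero, star_add, star_add, fe_star, star_star, add_mul, add_mul,
      (i.mul h).yx, (i.mul h).a.zl H.fe0, (i.mul h).st.a.z (i.mul h).a H.se, zero_add, zero_add])
    (by
    rw [mul_assoc, mul_assoc, hf, add_mul, one_mul, i2.neg.zr H.sf, add_zero, mul_assoc, sub_mul,
      add_mul, H.ff, i.a.zr H.sf, i.b.zr H.ef, add_zero, sub_zero]
    simpa only [star_mul, fe_star] using congrArg star (fix_st l.u l.f))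
  refine ⟨_, _, (t1.st.mul t2.st).mul (t3.cj l.u), l, ?_⟩
  generalize fe e + x * (star e * (g * e)) + star (γ * x') = m at l
  generalize fe e + x - x' = w at t2
  generalize 1 + -(e * (g * e) * γ) = v at t1
  simp only [mul_assoc]
  rw [l.u.1, mul_one, ← mul_assoc m, l.u.2, one_mul, ← mul_assoc (star w), t2.u.1, one_mul,
    ← mul_assoc, t1.u.1, one_mul]

theorem tm_neg (hy : In (fe e) e y) (hx : In (star e) e x) (hs : star x = -x) :
    Tm e (1 + y - star y + (x - c * (star y * y))) := by
  have hy' : In (fe (star e)) (star (star e)) y := by rwa [fe_st, star_star]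
  have hx' : In (star e) (star (star e)) x := by rwa [star_star]
  obtain ⟨q1, q2⟩ := H.flip.quad hy'
  refine H.tm_flip (H.flip.tm_eich hy' (sub_eq_add_neg x _ ▸ hx'.add q1) ?_)
  rw [← q2, star_sub, star_neg, hs]
  abel

omit [Infinite k] in
theorem pf_fam : PF k (fam c e) := by
  have a : PF k fun p : A × A => fe e * p.1 * e :=
    ((PF.const _).mul (.lin (.fst k A A))).mul (.const _)
  have b : PF k fun p : A × A => p.2 := .lin (.snd k A A)
  exact (((PF.const 1).add a).sub (a.st H.toCe)).add
    ((((PF.const _).mul (b.sub (b.st H.toCe))).mul (.const _)).sub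
      ((PF.const c).mul ((a.st H.toCe).mul a)))

theorem gen {F : A → A} (hF : PF k fun p => F (fam c e p))
    (h : ∀ d, d = c ∨ d = star c → ¬∀ y x, In (fe e) e y → In (star e) e x → star x = -x →
      F (1 + y - star y + (x - c * (star y * y))) * d = 0) : ∃ t, Tm e t ∧ Fu c (F t) := by
  have key : ∀ d, d = c ∨ d = star c → ∃ p, F (fam c e p) * d ≠ 0 := fun d hd => by
    by_contra! a
    refine h d hd fun y x hy hx hs => ?_
    have := a (y, c * x)
    rwa [fam, hy.l, hy.r, star_mul c, hs, neg_mul, sub_neg_eq_add, H.toCe.cen', ← add_mul, H.tr,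
      one_mul, hx.l, hx.r] at this
  obtain ⟨p, hp⟩ := H.toCe.full hF (key _ (.inl rfl)) (key _ (.inr rfl))
  refine ⟨_, H.tm_neg (H.jf.mid H.ie _) (H.is.mid H.ie _) ?_, hp⟩
  rw [star_mul, star_mul, star_star, star_sub, star_star]
  noncomm_ring

omit [Infinite k] in
theorem ce {d : A} (hd : d = c ∨ d = star c) : Ce k d ∧ Fu d e ∧ (∀ a, Fu c a → a * d ≠ 0) :=
  hd.elim (fun a => by rw [a]; exact ⟨H.toCe, H.dv.fu, fun _ b => b.1⟩) fun a => by
    rw [a]; exact ⟨H.toCe.symm, Ce.fu_symm H.dv.fu, fun _ b => b.2⟩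

theorem move (ha : a * e = a) (h : Fu c a) :
    ∃ t, Tm e t ∧ fe e * (t * a) = 0 ∧ Fu c (star e * (t * a)) := by
  obtain ⟨x, x', i, hx⟩ := H.ex
  obtain ⟨t, t1, t2⟩ := H.gen (F := fun u => star e * (u * a))
    ((PF.const _).mul (H.pf_fam.mul (.const _))) fun d hd g => by
      obtain ⟨G, g1, g2⟩ := H.ce hd
      have g3 := g 0 0 In.zero In.zero (by rw [star_zero, neg_zero])
      have g4 := g 0 x' In.zero i.b (i.skew hx)
      simp only [star_zero, mul_zero, sub_zero, add_zero, one_mul, add_mul, mul_add, g3, zero_add,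
        ← mul_assoc, i.b.l] at g3 g4
      rw [g3, zero_add] at g4
      have g5 : e * a * d = 0 := by rw [← i.xy, mul_assoc x, mul_assoc x, g4, mul_zero]
      have g6 : fe e * a * d = 0 := G.prl (G.fu_star g1).1 fun p => by
        have i1 := H.jf.mid H.ie (star p)
        have i2 : In (star e) (fe e) (star (fe e * star p * e)) := by
          simpa only [fe_star] using i1.st
        have i3 := (i2.mul i1).cen H.cen
        have := g _ 0 i1 In.zero (by rw [star_zero, neg_zero])
        rw [← mul_assoc, mul_add, mul_sub, mul_add, mul_sub, i1.zl H.sf, i2.l, i3.l, ← i3.r,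
          add_mul, add_mul, sub_mul, sub_mul, sub_mul, sub_mul, mul_assoc _ e, mul_assoc _ (e * a),
          g5, mul_one, add_zero, g3, star_mul, star_mul, star_star, fe_star] at this
        simpa [mul_assoc] using this
      refine g2 a h ?_
      rw [split e a, add_mul, add_mul, g3, g5, g6, add_zero, add_zero]
  have i1 : In (star e) e (star e * (t * a)) :=
    ⟨by rw [← mul_assoc, H.ss], by rw [mul_assoc, mul_assoc, ha]⟩
  obtain ⟨γ, j⟩ := H.toCe.inv H.dv' H.dv i1 t2
  have i2 : In (fe e) (star e) (-(fe e * (t * a) * γ)) := (H.jf.mid j.b _).neg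
  have i3 : In e (fe e) (star (-(fe e * (t * a) * γ))) := by
    simpa only [star_star, fe_star] using i2.st
  obtain ⟨q1, q2⟩ := H.quad i2
  refine ⟨_, (H.tm_eich i2 q1 q2).mul t1, ?_, ?_⟩
  · rw [mul_assoc, ← mul_assoc, mul_add, mul_sub, mul_add, i2.l, i3.zl H.fe0, q1.zl H.fe0,
      sub_zero, add_zero, mul_one, add_mul, ← i2.r, mul_assoc _ (star e), neg_mul, mul_assoc _ γ,
      j.yx, mul_assoc _ _ e, mul_assoc _ _ e, ha, add_neg_cancel]
  · rwa [mul_assoc, ← mul_assoc, mul_add, mul_sub, mul_add, i2.zl H.sf, i3.zl H.se, q1.zl H.se,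
      sub_zero, add_zero, add_zero, mul_one]

theorem rank_one {γ δ : A} (ha : a * e = a) (h : Fu c a) (i : Iv e (star e) γ δ)
    (hu : 1 + a * γ * star a ∈ unitary A) : TL e (1 + a * γ * star a) := by
  obtain ⟨t, t1, t2, t3⟩ := H.move ha h
  have i1 : In (star e) e (star e * (t * a)) :=
    ⟨by rw [← mul_assoc, H.ss], by rw [mul_assoc, mul_assoc, ha]⟩
  obtain ⟨β, j⟩ := H.toCe.inv H.dv' H.dv i1 t3
  have j' := j.st
  rw [star_star] at j'
  have e1 : t * (1 + a * γ * star a) * star t = 1 + t * a * γ * star (t * a) := by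
    rw [mul_add, add_mul, mul_one, t1.u.2, star_mul]
    simp only [mul_assoc]
  have h1 := H.cell (e1 ▸ mul_mem (mul_mem t1.u hu) t1.st.u) (γ := star β * (δ * β)) (by
    rw [add_mul, one_mul, mul_assoc, ← fe_star, ← star_mul, t2, star_zero, mul_zero, add_zero]) (by
    have := j.mul (i.mul j')
    rw [star_mul (star e), star_star] at this
    rwa [add_mul, mul_add, one_mul, H.se, zero_add, mul_assoc (_ * γ), mul_assoc _ γ,
      ← mul_assoc (star e), ← mul_assoc (star β)])
  have := (t1.st.tl.mul h1).mul t1.tl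
  rwa [← e1, ← mul_assoc, ← mul_assoc, t1.u.1, one_mul, mul_assoc, t1.u.1, mul_one] at this

omit [Infinite k] in
theorem eq_one (hg : g ∈ unitary A) {d : A} (hd : d = c ∨ d = star c)
    (h : ∀ v, star (v * e) * (g - 1) * (v * e) * d = 0) : g = 1 := by
  obtain ⟨G, g1, -⟩ := H.ce hd
  have h1 : ∀ v w, star (v * e) * (g - 1) * (w * e) * d = 0 := fun v w => by
    have p : ∀ w, star (v * e) * (g - 1) * (w * e) * d + star (w * e) * (g - 1) * (v * e) * d = 0 :=
      fun w => by
        have := h (v + w)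
        simp only [add_mul, mul_add, star_add, h, zero_add, add_zero] at this
        rw [← this, add_comm]
    refine (G.pol (p w) ?_).1
    rw [← p (d * w), mul_assoc d w, star_mul d, G.cen', ← mul_assoc _ d (w * e),
      G.cen (star (v * e) * (g - 1))]
    simp only [mul_assoc]
  have h2 : (g - 1) * d = 0 := G.prr g1.1 fun w => by
    rw [mul_assoc (g - 1)]
    refine G.prl (G.fu_star g1).1 fun v => ?_
    have := h1 (star v) w
    rwa [star_mul, star_star, mul_assoc (star e * v)] at this
  refine sub_eq_zero.1 (G.eq0 h2 ?_)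
  have h3 := congrArg (fun x => g * star x) h2
  simp only [star_mul, star_zero, mul_zero, ← G.cen', star_sub, star_one, ← mul_assoc, mul_sub,
    hg.2, mul_one] at h3
  rw [← neg_sub, neg_mul, h3, neg_zero]

/-- **The unitary group is the product of the two groups.** -/
theorem tl [FiniteDimensional k A] (hg : g ∈ unitary A) : TL e g := by
  generalize hS : LinearMap.ker (LinearMap.mulLeft k (g - 1)) = S
  induction S using WellFoundedGT.induction generalizing g with
  | ind S ih =>
  by_cases h0 : g = 1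
  · exact h0 ▸ Tm.one.tl
  have p : PF k fun v : A => v * e := (PF.lin .id).mul (.const e)
  obtain ⟨v, hv⟩ := H.toCe.full (((p.st H.toCe).mul (.const (g - 1))).mul p)
    (not_forall.1 fun a => h0 (H.eq_one hg (.inl rfl) a))
    (not_forall.1 fun a => h0 (H.eq_one hg (.inr rfl) a))
  have hw : v * e * e = v * e := by rw [mul_assoc, H.ee]
  generalize v * e = w at hv hw
  have hw' : star e * star w = star w := by rw [← star_mul, hw]
  have i1 : In (star e) e (star ((g - 1) * w) * w) :=
    ⟨by rw [star_mul, ← mul_assoc, ← mul_assoc, hw'], by rw [mul_assoc, hw]⟩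
  have e1 : star (star ((g - 1) * w) * w) = star w * (g - 1) * w := by
    rw [star_mul, star_star, mul_assoc]
  have e2 : star w * (g - 1) * w + star ((g - 1) * w) * w +
      star ((g - 1) * w) * ((g - 1) * w) = 0 := by
    have : g - 1 + star (g - 1) + star (g - 1) * (g - 1) = 0 := by
      rw [star_sub, star_one, mul_sub, sub_mul, hg.1]
      noncomm_ring
    rw [← zero_mul w, ← mul_zero (star w), ← this, star_mul]
    noncomm_ring
  have f1 : Fu c (star ((g - 1) * w) * w) := by
    rw [← star_star (_ * w), e1]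
    exact H.toCe.fu_star hv
  obtain ⟨γ, j⟩ := H.toCe.inv H.dv' H.dv i1 f1
  have j' := j.st
  rw [star_star, e1] at j'
  have ha : (g - 1) * w * e = (g - 1) * w := by rw [mul_assoc, hw]
  have fa : Fu c ((g - 1) * w) := Ce.fu_r (mul_assoc (star w) _ _ ▸ hv)
  have s1 : ∀ x, (g - 1) * x = 0 → star ((g - 1) * w) * x = 0 := fun x hx => by
    rw [sub_mul, one_mul, sub_eq_zero] at hx
    have := congrArg star (fix_st hg hx)
    rw [star_mul, star_star] at this
    rw [star_mul, mul_assoc, star_sub, star_one, sub_mul, this, one_mul, sub_self, mul_zero]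
  have s2 : (1 + (g - 1) * w * γ * star ((g - 1) * w)) * w = g * w := by
    rw [add_mul, mul_assoc _ _ w, mul_assoc _ γ, j.yx, ha, ← add_mul, add_sub_cancel]
  have a0 : (g - 1) * w ≠ 0 := fun e => fa.1 (by rw [e, zero_mul])
  generalize hS' : (g - 1) * w = a at *
  generalize star w * (g - 1) * w = β at *
  have e3 := eq_neg_of_add_eq_zero_right e2
  have hu : 1 + a * γ * star a ∈ unitary A := by
    have r1 : star γ * (star a * a) * γ = -(γ + star γ) := by
      rw [e3, mul_neg, neg_mul, mul_add, add_mul, j'.yx, j.b.l, mul_assoc, j.xy, j'.b.r]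
    have r2 : γ * (star a * a) * star γ = -(star γ + γ) := by
      rw [e3, mul_neg, neg_mul, mul_add, add_mul, j.yx, j'.b.l, mul_assoc, j'.xy, j.b.r, add_comm]
    constructor
    · calc _ = 1 + a * (γ + star γ + star γ * (star a * a) * γ) * star a := by
            rw [star_add, star_one, star_mul, star_mul, star_star]; noncomm_ring
        _ = 1 := by rw [r1, add_neg_cancel, mul_zero, zero_mul, add_zero]
    · calc _ = 1 + a * (star γ + γ + γ * (star a * a) * star γ) * star a := by
            rw [star_add, star_one, star_mul, star_mul, star_star]; noncomm_ring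
        _ = 1 := by rw [r2, add_neg_cancel, mul_zero, zero_mul, add_zero]
  have s3 : ∀ x, star a * x = 0 → (1 + a * γ * star a) * x = x := fun x hx => by
    rw [add_mul, one_mul, mul_assoc, hx, mul_zero, add_zero]
  have hs := H.rank_one ha fa j.symm hu
  generalize 1 + a * γ * star a = s at *
  have l1 : ∀ x, (g - 1) * x = 0 → (star s * g - 1) * x = 0 := fun x h1 => by
    have h2 := s3 x (s1 x h1)
    rw [sub_mul, one_mul, sub_eq_zero] at h1
    rw [sub_mul, one_mul, mul_assoc, h1, sub_eq_zero]
    nth_rw 1 [← h2]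
    rw [← mul_assoc, hu.1, one_mul]
  have l2 : (star s * g - 1) * w = 0 := by
    rw [sub_mul, one_mul, mul_assoc, ← s2, ← mul_assoc, hu.1, one_mul, sub_self]
  have := hs.mul (ih _ (hS ▸ SetLike.lt_iff_le_and_exists.2 ⟨l1, w, l2, fun e => a0 (hS' ▸ e)⟩)
    (mul_mem (Unitary.star_mem hu) hg) rfl)
  rwa [← mul_assoc, hu.2, one_mul] at this

end Hy

end Vale.Agent.P011UW
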