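import Vale.Agent.P011UW.Mod
import Vale.Agent.P011U.IF
import Vale.Agent.P011LT.Basic

/-!
Isotropic forms of type `A` are projectively simple.
-/

set_option autoImplicit false
set_option linter.all false

open Matrix

namespace Vale.Agent.P011UW

open Vale.Agent.P011L Vale.Agent.P011LB

variable {k K A : Type} [Field k] [Field K] [Algebra k K] {n : ℕ} [Ring A] [StarRing A]
  [Algebra k A] {c e : A}

theorem det_T (H : Hy k c e) (g : A →+* Mn n K) {t : A} (h : Tm e t) : (g t).det = 1 := by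
  obtain ⟨u, h, rfl⟩ := h
  let δ : unitary A →* K := detMonoidHom.comp (g.toMonoidHom.comp (unitary A).subtype)
  refine Subgroup.normalClosure_le_normal (N := δ.ker) (fun v hv => ?_) h
  show (g v.1).det = 1
  rw [← add_sub_cancel 1 v.1, ← In.r hv, map_add, map_one, map_mul, det_one_add_mul_comm,
    ← map_mul, In.zl hv H.se, map_zero, add_zero, det_one]

theorem lev_T (ski : SKI) (usk : USK) (hk : Glob k) [Infinite k] [FiniteDimensional k A]
    (H : Hy k c e) (g : A →+* Mn n K) (hg : Submodule.span K (Set.range g) = ⊤) (h0 : g e ≠ 0)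
    (di : (c * c = c ∧ g c = 1) ∨ ∀ a, a ≠ 0 → Fu c a) {l : A} (hl : Lm e l)
    (hd : (g l).det = 1) : Tm e l := by
  obtain ⟨x, x', i, hx⟩ := H.ex
  have hx' := i.skew hx
  obtain ⟨d, f, f0, f1, f2, f3⟩ := exists_rep (k := k) H.ee g h0 hg
  letI : StarRing (Co k H.ee) :=
    { star := fun r => ⟨x * star r.1 * x', i.a.mid i.b _⟩
      star_involutive := fun r => Subtype.ext (by
        show x * star (x * star r.1 * x') * x' = r.1
        rw [star_mul, star_mul, star_star, hx, hx', mul_neg, neg_mul_neg, ← mul_assoc, ← mul_assoc,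
          i.xy, mul_assoc, i.xy, r.2.l, r.2.r])
      star_mul := fun r s => Subtype.ext (by
        show x * star (r.1 * s.1) * x' = x * star s.1 * x' * (x * star r.1 * x')
        rw [star_mul, mul_assoc _ x', ← mul_assoc x', ← mul_assoc x', i.yx, r.2.st.l]
        simp only [mul_assoc])
      star_add := fun r s => Subtype.ext (by
        show x * star (r.1 + s.1) * x' = x * star r.1 * x' + x * star s.1 * x'
        rw [star_add, mul_add, add_mul]) }
  have sv : ∀ r : Co k H.ee, x' * (star r).1 * x = star r.1 := fun r => by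
    show x' * (x * star r.1 * x') * x = _
    rw [mul_assoc, mul_assoc _ x', i.yx, ← mul_assoc, ← mul_assoc, i.yx, r.2.st.l, r.2.st.r]
  let μ : (Co k H.ee)ˣ →* unitary A :=
    { toFun := fun u => ⟨_, (H.lev (Co.iv u)).u⟩
      map_one' := Subtype.ext (by
        show fe e + e + star e = 1
        rw [add_comm (fe e), fe_sum])
      map_mul' := fun u v => Subtype.ext (by
        show fe e + u.1.1 * v.1.1 + star ((v⁻¹).1.1 * (u⁻¹).1.1) =
          (fe e + u.1.1 + star (u⁻¹).1.1) * (fe e + v.1.1 + star (v⁻¹).1.1)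
        simp only [mul_add, add_mul, H.ff, star_mul, v.1.2.zl H.fe0, (v⁻¹).1.2.st.zl H.fs,
          u.1.2.zr H.ef, (u⁻¹).1.2.st.zr H.sf, u.1.2.z (v⁻¹).1.2.st H.es,
          (u⁻¹).1.2.st.z v.1.2 H.se, add_zero, zero_add]) }
  have l1 : star l * e = e * star l := by
    rw [← one_mul (e * _), ← hl.u.1, mul_assoc, ← mul_assoc l, hl.e', mul_assoc, hl.u.2, mul_one]
  have l2 : Iv e e (l * e) (star l * e) :=
    ⟨⟨by rw [← mul_assoc, ← hl.e', mul_assoc, H.ee], by rw [mul_assoc, H.ee]⟩,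
      ⟨by rw [← mul_assoc, ← l1, mul_assoc, H.ee], by rw [mul_assoc, H.ee]⟩,
      by rw [mul_assoc, ← mul_assoc e, ← l1, mul_assoc, H.ee, ← mul_assoc, hl.u.2, one_mul],
      by rw [mul_assoc, ← mul_assoc e, ← hl.e', mul_assoc, H.ee, ← mul_assoc, hl.u.1, one_mul]⟩
  have l3 : l = fe e + l * e + star (star l * e) := by
    rw [l1, star_mul, star_star, ← hl.f, ← mul_add, ← mul_add, add_comm (fe e), fe_sum, mul_one]
  let z : Co k H.ee := ⟨c * e, H.ie.cen H.cen⟩
  have z1 : (star z).1 = star c * e := by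
    show x * star (c * e) * x' = _
    rw [star_mul, ← mul_assoc, i.a.r, H.toCe.cen', mul_assoc, i.xy]
  have z2 : ∀ r : Co k H.ee, (r * z).1 = r.1 * c := fun r => by
    show r.1 * (c * e) = _
    rw [← H.cen, ← mul_assoc, r.2.r]
  have z3 : ∀ r : Co k H.ee, (r * star z).1 = r.1 * star c := fun r => by
    show r.1 * (star z).1 = _
    rw [z1, ← H.toCe.cen', ← mul_assoc, r.2.r]
  have z4 : ∀ r : Co k H.ee, Fu z r ↔ Fu c r.1 := fun r => and_congr
    (not_congr (Subtype.ext_iff.trans (by rw [z2]; rfl)))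
    (not_congr (Subtype.ext_iff.trans (by rw [z3]; rfl)))
  refine ⟨μ (Co.un l2), ar ski usk f hk f0 f1 (fun a r => Subtype.ext ?_) (c := z)
    (fun r => Subtype.ext ?_) (Subtype.ext ?_) (fun a => ?_) (fun r a => ?_)
    (di.imp (fun a => ⟨Subtype.ext ?_, f3 _ ?_⟩) fun a r b => (z4 r).2
      (a _ fun b' => b (Subtype.ext b'))) ((TT e).comap μ) (fun s a => Tm.mem ?_) _ ?_, l3.symm⟩
  · show x * star (a • r.1) * x' = a • (x * star r.1 * x')
    rw [H.st, mul_smul_comm, smul_mul_assoc]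
  · rw [z2]
    show _ = c * e * r.1
    rw [mul_assoc, r.2.l, H.cen]
  · show c * e + (star z).1 = e
    rw [z1, ← add_mul, H.tr, one_mul]
  · have := (z1.symm.trans (congrArg Subtype.val a) : _ = c * e)
    rw [← sub_eq_zero, ← sub_mul, ← neg_sub, neg_mul, neg_eq_zero, H.un.mul_right_eq_zero] at this
    exact H.dv.fu.1 (by rw [this, zero_mul])
  · obtain ⟨r', b⟩ := H.dv.dv r.1 r.2 ((z4 r).1 a)
    exact ⟨Co.un b, rfl⟩
  · rw [z2]
    show c * e * c = c * e
    rw [mul_assoc, H.cen, ← mul_assoc, a.1]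
  · show g (c * e) = _
    rw [map_mul, a.2, one_mul]
  · have a1 : x' * s.1.1 * x = star s.1.1 := by rw [← sv, a]
    have a2 : star (s⁻¹).1 = (s⁻¹).1 := by
      rw [← one_mul (star _), ← s.inv_mul, mul_assoc, ← a, ← star_mul, s.inv_mul, star_one,
        mul_one]
    refine (H.tm_lev ((Co.iv s).mul i) ?_ i hx).of ?_
    · rw [star_mul, hx, ← a1, neg_mul, ← mul_assoc, ← mul_assoc, i.xy, s.1.2.l]
    · show fe e + s.1.1 + star (s⁻¹).1.1 = _
      rw [← sv, a2, mul_assoc s.1.1, i.xy, s.1.2.r]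
  · generalize hu : Co.un (k := k) (h := H.ee) l2 = u
    have a1 : l = fe e + u.1.1 + star (u⁻¹).1.1 := hu ▸ l3
    have w := H.weyl i hx
    have a2 : l = (u.1.1 + (1 - e)) * ((fe e + x - x') * ((star (u⁻¹).1).1 + (1 - e)) *
        star (fe e + x - x')) := by
      have b1 : ∀ r, In e e r → (fe e + x - x') * r * star (fe e + x - x') = x' * r * x :=
        fun r b => by
          rw [H.weyl_star i hx, sub_mul, add_mul, b.zl H.fe0, i.a.z b H.se, add_zero, zero_sub,
            mul_add, mul_sub, (i.b.mul b).neg.zr H.ef, (i.b.mul b).neg.z i.b H.es, add_zero,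
            zero_sub, neg_mul, neg_neg]
      rw [mul_add (_ - x'), add_mul (_ * _), mul_sub (_ - x') 1, sub_mul (_ * 1), mul_one, w.2,
        b1 _ (star (u⁻¹).1).2, b1 _ H.ie, sv, i.b.r, i.yx, a1, fe]
      simp only [mul_add, add_mul, mul_sub, sub_mul, mul_one, one_mul, H.es, u.1.2.zr H.es,
        u.1.2.z (u⁻¹).1.2.st H.es, (u⁻¹).1.2.st.zl H.es]
      abel
    rw [a2, map_mul, map_mul, map_mul, det_mul, det_mul, det_mul, mul_right_comm (det _) _ (det _),
      ← det_mul, ← map_mul, w.2, map_one, det_one, one_mul, ← f2, ← f2] at hd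
    have a3 : (f (star u.1)).det * (f (star (u⁻¹).1)).det = 1 := by
      rw [← det_mul, ← map_mul, ← star_mul, u.inv_mul, star_one, map_one, det_one]
    exact mul_right_cancel₀ (right_ne_zero_of_mul_eq_one hd) (a3.trans hd.symm)

theorem su (ski : SKI) (usk : USK) (hk : Glob k) [Infinite k] [NeZero n] (M : Mo k K n A) {ε : A}
    (h1 : ε * ε = ε) (h2 : ε * star ε = 0) (h3 : star ε * ε = 0) (h4 : (M.j ε).1 ≠ 0)
    (h5 : (M.j ε).2 ≠ 0) : PSimple M.SU := by
  haveI := M.fin
  obtain ⟨c, G, c1, c2, c3⟩ := M.exists_ce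
  obtain ⟨e, H⟩ := exists_hy G M.reg h1 h2 h3 (c1 ε h4 h5)
  intro N hN hc
  obtain ⟨g, g1, g2⟩ := SetLike.not_le_iff_exists.1 hc
  have := H.TT_le (N.map M.SU.subtype) (by
    rintro t ht _ ⟨a, ha, rfl⟩
    exact ⟨_, hN.conj_mem a ha ⟨t, det_T H M.j1 ⟨t, ht, rfl⟩⟩, rfl⟩) ⟨g, g1, rfl⟩
    fun a => g2 (Subgroup.mem_center_iff.2 fun b => Subtype.ext (Subtype.ext (a b.1.1).symm))
  refine eq_top_iff.2 fun u _ => ?_
  obtain ⟨t, l, t1, l1, e1⟩ := H.tl u.1.2
  have l2 := lev_T ski usk hk H M.j1 M.span (c2 e H.dv.fu.1) c3 l1 (by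
    have : (M.j1 u.1.1).det = 1 := u.2
    rwa [e1, map_mul, det_mul, det_T H M.j1 t1, one_mul] at this)
  obtain ⟨a, ha, e2⟩ := this ((t1.mul l2).of e1).mem
  exact (Subtype.ext e2 : a = u) ▸ ha

/-- **Isotropic forms of type `A`.** -/
theorem ia_of (dic : DIC) (ski : SKI) (usk : USK) : P011U.IA := by
  intro k K _ _ _ _ n hk hn T hT
  haveI : NeZero n := ⟨by omega⟩
  haveI : Infinite k := hk.elim (fun _ => .of_injective _ Nat.cast_injective)
    fun ⟨F, _, _, _, _⟩ => .of_injective _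
      ((algebraMap (RatFunc F) k).injective.comp (RatFunc.algebraMap_injective F))
  obtain ⟨A, _, _, _, M, ⟨φ, -⟩, h⟩ := dic k K n hn T
  obtain ⟨ε, h1, h2, h3, h4, h5⟩ := h hT
  exact P011LT.PSimple.congr φ (su ski usk hk M h1 h2 h3 h4 h5)

end Vale.Agent.P011UW
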