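import Vale.Agent.P011UW.Cor

/-!
Isotropic forms of type `A`: the hyperbolic plane in the model.
-/

set_option autoImplicit false
set_option linter.all false

open Matrix TensorProduct

namespace Vale.Agent.P011UW

open Vale.Agent.P011L Vale.Agent.P011LB

theorem regular {R : Type} [Ring R] [IsSemisimpleRing R] (x : R) : ∃ y, x * y * x = x := by
  obtain ⟨u, u1, u2⟩ := IsSemisimpleRing.ideal_eq_span_idempotent (Ideal.span {x})
  obtain ⟨y, hy⟩ := Ideal.mem_span_singleton'.1 (u2.ge (Ideal.mem_span_singleton_self u))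
  obtain ⟨w, hw⟩ := Ideal.mem_span_singleton'.1 (u2.le (Ideal.mem_span_singleton_self x))
  exact ⟨y, by rw [mul_assoc, hy, ← hw, mul_assoc, u1.eq]⟩

theorem exists_hy {k A : Type} [Field k] [Ring A] [StarRing A] [Algebra k A] [FiniteDimensional k A]
    {c ε : A} (G : Ce k c) (reg : ∀ x : A, ∃ y, x * y * x = x) (h1 : ε * ε = ε)
    (h2 : ε * star ε = 0) (h3 : star ε * ε = 0) (h4 : Fu c ε) : ∃ e, Hy k c e := by
  obtain ⟨_, ⟨e, ⟨e1, e2, e3⟩, rfl⟩, hm⟩ := WellFounded.has_min (wellFounded_lt (α := Submodule k A))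
    ((fun p => LinearMap.range (LinearMap.mulLeft k p)) '' {p | p * p = p ∧ In ε ε p ∧ Fu c p})
    ⟨_, ε, ⟨h1, ⟨h1, h1⟩, h4⟩, rfl⟩
  have key : ∀ q, q * q = q → In e e q → Fu c q → q = e := fun q q1 q2 q3 => by
    have l : LinearMap.range (LinearMap.mulLeft k q) ≤ LinearMap.range (LinearMap.mulLeft k e) :=
      fun _ ⟨x, hx⟩ => ⟨q * x, ((mul_assoc e q x).symm.trans (congrArg (· * x) q2.l)).trans hx⟩
    obtain ⟨z, hz⟩ := (l.eq_or_lt.resolve_right (hm _ ⟨q, ⟨q1, ⟨by
      rw [← q2.l, ← mul_assoc, e2.l], by rw [← q2.r, mul_assoc, e2.r]⟩, q3⟩, rfl⟩)).ge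
      ⟨1, mul_one e⟩
    have hz' : q * z = e := hz
    rw [← q2.r, ← hz', ← mul_assoc, q1]
  refine ⟨e, G, ⟨e1, e3, fun r i f => ?_⟩, ?_, ?_⟩
  · obtain ⟨y, hy⟩ := reg r
    have i1 : In e e (e * y * e) := In.mid ⟨e1, e1⟩ ⟨e1, e1⟩ y
    have a : r * (e * y * e) * r = r := by
      rw [mul_assoc, mul_assoc _ e, i.l, ← mul_assoc, ← mul_assoc, i.r, hy]
    generalize e * y * e = z at i1 a
    exact ⟨z, i, i1, key _ (by rw [← mul_assoc, a]) (i.mul i1) (G.fu_l (b := r) (by rwa [a])),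
      key _ (by rw [mul_assoc, ← mul_assoc r, a]) (i1.mul i)
        (Ce.fu_r (a := r) (by rwa [← mul_assoc, a]))⟩
  · exact e2.z e2.st h2
  · exact e2.st.z e2 h3

variable {k K A : Type} [Field k] [Field K] [Algebra k K] {n : ℕ} [Ring A] [StarRing A]
  [Algebra k A] (M : Mo k K n A)

namespace Mo

theorem inj : Function.Injective M.j := fun a b e =>
  Algebra.TensorProduct.includeRight_injective (algebraMap k K).injective (M.bij.1 (by
    simpa only [Algebra.TensorProduct.includeRight_apply, lf_tmul, one_smul] using e))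

include M in
theorem stsm (c : k) (a : A) : star (c • a) = c • star a :=
  M.inj (by rw [map_smul, M.st, M.st, map_smul]; rfl)

theorem ind {P : BB n K → Prop} (h0 : P 0) (h1 : ∀ x y, P x → P y → P (x + y))
    (h2 : ∀ (c : K) a, P (c • M.j a)) (y : BB n K) : P y := by
  obtain ⟨T, rfl⟩ := M.bij.2 y
  induction T with
  | zero => rwa [map_zero]
  | tmul c a => exact lf_tmul M.j c a ▸ h2 c a
  | add a b c d => exact map_add (lf M.j) a b ▸ h1 _ _ c d

/-- the retractions -/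
noncomputable def rt (π : K →ₗ[k] k) : BB n K →ₗ[k] A :=
  (TensorProduct.lid k A).toLinearMap ∘ₗ π.rTensor A ∘ₗ
    (AlgEquiv.ofBijective _ M.bij).symm.toLinearMap.restrictScalars k

theorem rt_lf (π : K →ₗ[k] k) (T : K ⊗[k] A) :
    M.rt π (lf M.j T) = TensorProduct.lid k A (π.rTensor A T) :=
  congrArg (fun T => TensorProduct.lid k A (π.rTensor A T))
    ((AlgEquiv.ofBijective _ M.bij).symm_apply_apply T)

theorem rt_smul (π : K →ₗ[k] k) (c : K) (a : A) : M.rt π (c • M.j a) = π c • a := by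
  rw [← lf_tmul, rt_lf]
  rfl

theorem rt_zero {y : BB n K} (h : ∀ π, M.rt π y = 0) : y = 0 := by
  classical
  obtain ⟨T, rfl⟩ := M.bij.2 y
  have : T = 0 := (equivFinsuppOfBasisLeft (Module.Basis.ofVectorSpace k K)).injective
    (Finsupp.ext fun i => by rw [equivFinsuppOfBasisLeft_apply, ← M.rt_lf, h, map_zero]; rfl)
  rw [this, map_zero]

theorem rt_left (π : K →ₗ[k] k) (a : A) (y : BB n K) : M.rt π (M.j a * y) = a * M.rt π y :=
  M.ind (P := fun y => M.rt π (M.j a * y) = a * M.rt π y) (by simp)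
    (fun x y b c => by simp only [mul_add, map_add, b, c])
    (fun c b => by rw [mul_smul_comm, ← map_mul, rt_smul, rt_smul, mul_smul_comm]) y

theorem rt_right (π : K →ₗ[k] k) (a : A) (y : BB n K) : M.rt π (y * M.j a) = M.rt π y * a :=
  M.ind (P := fun y => M.rt π (y * M.j a) = M.rt π y * a) (by simp)
    (fun x y b c => by simp only [add_mul, map_add, b, c])
    (fun c b => by rw [smul_mul_assoc, ← map_mul, rt_smul, rt_smul, smul_mul_assoc]) y

theorem rt_st (π : K →ₗ[k] k) (y : BB n K) : M.rt π (P011LB.st y) = star (M.rt π y) :=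
  M.ind (P := fun y => M.rt π (P011LB.st y) = star (M.rt π y))
    ((M.rt π).map_zero.trans (by rw [map_zero, star_zero]))
    (fun x y b c => by rw [map_add, star_add, ← b, ← c, ← map_add]; rfl)
    (fun c b => by rw [rt_smul, M.stsm, ← M.rt_smul π, M.st]; rfl) y

theorem rt_add (π π' : K →ₗ[k] k) (a : k) (y : BB n K) :
    M.rt (π + a • π') y = M.rt π y + a • M.rt π' y :=
  M.ind (P := fun y => M.rt (π + a • π') y = M.rt π y + a • M.rt π' y) (by simp)
    (fun x y b c => by simp only [map_add, b, c, smul_add]; abel)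
    (fun c b => by simp only [rt_smul, LinearMap.add_apply, LinearMap.smul_apply, add_smul,
      smul_smul, smul_eq_mul]) y

theorem rt_j {π : K →ₗ[k] k} (h : π 1 = 1) (a : A) : M.rt π (M.j a) = a := by
  rw [← one_smul K (M.j a), rt_smul, h, one_smul]

include M in
theorem reg (x : A) : ∃ y, x * y * x = x := by
  obtain ⟨π, h⟩ := Module.Projective.exists_dual_eq_one k (one_ne_zero : (1 : K) ≠ 0)
  obtain ⟨y, hy⟩ := regular (M.j x)
  exact ⟨M.rt π y, by rw [← M.rt_left, ← M.rt_right, hy, M.rt_j h]⟩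

/-- The first component. -/
def j1 : A →+* Mn n K := (RingHom.fst _ _).comp M.j.toRingHom

theorem span : Submodule.span K (Set.range M.j1) = ⊤ := eq_top_iff.2 fun X _ =>
  M.ind (P := fun y => y.1 ∈ Submodule.span K (Set.range M.j1)) (zero_mem _)
    (fun _ _ a b => add_mem a b)
    (fun c a => Submodule.smul_mem _ c (Submodule.subset_span ⟨a, rfl⟩)) (X, 0)

theorem fst_star (a : A) : (M.j (star a)).1 = (M.j a).2ᵀ := by rw [M.st]; rfl

variable [NeZero n]

include M in
theorem fin : FiniteDimensional k A := Module.finite_of_finrank_pos (by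
  rw [← Module.finrank_baseChange (R := K) (S := k),
    (AlgEquiv.ofBijective _ M.bij).toLinearEquiv.finrank_eq]
  exact Module.finrank_pos)

theorem sc {c : A} (h : ∀ x, x * c = c * x) : ∃ u v : K, M.j c = (u • 1, v • 1) := by
  have h : ∀ y, y * M.j c = M.j c * y := M.ind (by simp)
    (fun x y a b => by rw [add_mul, mul_add, a, b]) fun d a => by
      rw [smul_mul_assoc, mul_smul_comm, ← map_mul, ← map_mul, h]
  obtain ⟨u, hu⟩ := (Algebra.IsCentral.mem_center_iff K).1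
    (Subalgebra.mem_center_iff.2 fun x => congrArg Prod.fst (h (x, 0)))
  obtain ⟨v, hv⟩ := (Algebra.IsCentral.mem_center_iff K).1
    (Subalgebra.mem_center_iff.2 fun x => congrArg Prod.snd (h (0, x)))
  exact ⟨u, v, Prod.ext (hu.trans (Algebra.algebraMap_eq_smul_one u))
    (hv.trans (Algebra.algebraMap_eq_smul_one v))⟩

theorem exists_c : ∃ (c : A) (u v : K), M.j c = (u • 1, v • 1) ∧ u + v = 1 ∧ u ≠ v ∧ u ≠ 0 ∧
    (v = 0 ∨ v ≠ 0 ∧ ∀ a, (M.j a).1 = 0 → a = 0) := by
  rcases M.dich with ⟨c, h⟩ | h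
  · exact ⟨c, 1, 0, by simpa using h, add_zero 1, one_ne_zero, one_ne_zero, .inl rfl⟩
  obtain ⟨π, h1, h2⟩ : ∃ π : K →ₗ[k] k, π 1 = 1 ∧ M.rt π ((1, 0) - (0, 1)) ≠ 0 := by
    obtain ⟨π, h1⟩ := Module.Projective.exists_dual_eq_one k (one_ne_zero : (1 : K) ≠ 0)
    obtain ⟨ρ, h2⟩ := not_forall.1 fun a =>
      (by simp : ((1, 0) - (0, 1) : BB n K) ≠ 0) (M.rt_zero a)
    by_cases h3 : M.rt π ((1, 0) - (0, 1)) = 0
    · exact ⟨ρ + (1 - ρ 1) • π, by simp [h1], by rwa [rt_add, h3, smul_zero, add_zero]⟩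
    · exact ⟨π, h1, h3⟩
  have s : star (M.rt π (1, 0)) = M.rt π (0, 1) := by
    rw [← rt_st]
    simp [P011LB.st]
  have t : M.rt π (1, 0) + star (M.rt π (1, 0)) = 1 := by
    rw [s, ← map_add, ← M.rt_j h1 1, map_one]
    simp [Prod.one_eq_mk]
  rw [map_sub, ← s] at h2
  obtain ⟨u, v, e⟩ := M.sc (c := M.rt π (1, 0)) fun a => by
    rw [← M.rt_left π a (1, 0), ← rt_right]
    exact congrArg _ (Prod.ext (by simp) (by simp))
  generalize M.rt π (1, 0) = c at *
  have e' : (M.j (star c)).1 = v • 1 := by rw [fst_star, e, transpose_smul, transpose_one]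
  have c0 : c ≠ 0 := fun a => by simp [a] at h2
  refine ⟨c, u, v, e, ?_, fun a => h2 (h _ ?_), fun a => c0 (h _ ?_),
    .inr ⟨fun a => c0 (star_eq_zero.1 (h _ ?_)), h⟩⟩
  · have := congrArg (fun x => (M.j x).1 0 0) t
    simpa [e, e'] using this
  · rw [map_sub, Prod.fst_sub, e', e, a, sub_self]
  · rw [e, a, zero_smul]
  · rw [e', a, zero_smul]

theorem exists_ce : ∃ c, Ce k c ∧ (∀ a, (M.j a).1 ≠ 0 → (M.j a).2 ≠ 0 → Fu c a) ∧
    (∀ a, a * c ≠ 0 → (M.j a).1 ≠ 0) ∧ ((c * c = c ∧ (M.j c).1 = 1) ∨ ∀ a, a ≠ 0 → Fu c a) := by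
  obtain ⟨c, u, v, e, h1, h2, h3, h4⟩ := M.exists_c
  haveI := M.fin
  have e' : M.j (star c) = (v • 1, u • 1) := by
    rw [M.st, e]
    simp [P011LB.st]
  have a1 : ∀ a, a * c ≠ 0 → (M.j a).1 ≠ 0 := fun a b d => b (h4.elim
    (fun f => M.inj (by rw [map_mul, e, f]; simp [Prod.ext_iff, d])) fun f => by
      rw [f.2 a d, zero_mul])
  have a2 : ∀ a, (M.j a).1 ≠ 0 → (M.j a).2 ≠ 0 → Fu c a := fun a b d =>
    ⟨fun f => b (by simpa [e, h3] using congrArg (fun x => (M.j x).1) f),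
      fun f => d (by simpa [e', h3] using congrArg (fun x => (M.j x).2) f)⟩
  refine ⟨c, ⟨M.stsm, fun x => M.inj ?_, M.inj ?_, ?_, fun a b ha hb => ?_⟩, a2, a1, h4.imp
    (fun f => ?_) fun f a b => a2 a (fun d => b (f.2 a d)) fun d => b (star_eq_zero.1
      (f.2 _ (by rw [fst_star, d, transpose_zero])))⟩
  · simp [e, Prod.ext_iff]
  · simp [e, e', Prod.ext_iff, ← add_smul, h1, add_comm v]
  · haveI := IsArtinianRing.of_finite k A
    refine IsArtinianRing.isUnit_iff_isRightRegular.2 fun x y f => M.inj ?_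
    simpa [e, e', Prod.ext_iff, ← sub_smul, sub_ne_zero.2 h2, sub_ne_zero.2 h2.symm,
      smul_right_inj] using congrArg M.j f
  · by_contra! f
    have f1 : ∀ y, M.j a * y * M.j (b * c) = 0 := M.ind (by simp)
      (fun x y a b => by rw [mul_add, add_mul, a, b, add_zero]) fun d x => by
        rw [mul_smul_comm, smul_mul_assoc, ← map_mul, ← map_mul, ← mul_assoc, f, map_zero,
          smul_zero]
    obtain ⟨i, j, hi⟩ : ∃ i j, (M.j a).1 i j ≠ 0 := by
      by_contra! g
      exact a1 a ha (Matrix.ext g)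
    refine a1 b hb (Matrix.ext fun p q => ?_)
    have := congrArg (fun x => x.1 i q) (f1 (single j p 1, 0))
    simpa [e, h3, hi, mul_apply, single_apply, ite_and] using this
  · rw [f, add_zero] at h1
    exact ⟨M.inj (by simp [e, f, h1, Prod.ext_iff]), by rw [e, h1, one_smul]⟩

end Mo

end Vale.Agent.P011UW
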